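import Vale.Agent.P016Z.Base.Nrm
import Mathlib.GroupTheory.FiniteAbelian.Basic
import Mathlib.RingTheory.DedekindDomain.Factorization
import Mathlib.LinearAlgebra.FreeModule.IdealQuotient

/-!
P016, base: Hensel approximation, finiteness of the class groups, the complement `J0`, and the
existence of the data.
-/

open NumberField Finset

set_option linter.unusedSectionVars false

namespace Vale.Agent.P016Z

/-- a subgroup of a commutative group of exponent six has a complement -/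
theorem exists_compl {G : Type} [CommGroup G] (h6 : ∀ x : G, x ^ 6 = 1) (A : Subgroup G) :
    ∃ B : Subgroup G, A ⊓ B = ⊥ ∧ A ⊔ B = ⊤ := by
  obtain ⟨B, -, hB⟩ := zorn_le_nonempty₀ {B : Subgroup G | A ⊓ B = ⊥} (fun c hc hch y hy => by
    refine ⟨sSup c, ?_, fun z hz => le_sSup hz⟩
    change A ⊓ sSup c = ⊥
    rw [eq_bot_iff]
    rintro x ⟨hxA, hx⟩
    obtain ⟨D, hD, hxD⟩ := (Subgroup.mem_sSup_of_directedOn ⟨y, hy⟩ hch.directedOn).1 hx
    have : x ∈ A ⊓ D := ⟨hxA, hxD⟩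
    rwa [hc hD] at this) ⊥ (inf_bot_eq A)
  refine ⟨B, hB.prop, ?_⟩
  have key : ∀ (p : ℕ) (y : G), p.Prime → y ^ p = 1 → y ∈ A ⊔ B := by
    intro p y hp hy
    by_contra hn
    have h1 : A ⊓ (B ⊔ Subgroup.zpowers y) = ⊥ := by
      rw [eq_bot_iff]
      rintro x ⟨hxA, hx⟩
      obtain ⟨b, hb, _, ⟨k, rfl⟩, rfl⟩ := Subgroup.mem_sup.1 hx
      simp only at hxA ⊢
      by_cases hk : (p : ℤ) ∣ k
      · obtain ⟨l, rfl⟩ := hk
        have e : y ^ ((p : ℤ) * l) = 1 := by rw [zpow_mul, zpow_natCast, hy, one_zpow]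
        rw [e, mul_one] at hxA ⊢
        have : b ∈ A ⊓ B := ⟨hxA, hb⟩
        rwa [hB.prop] at this
      · exfalso
        apply hn
        have hc : IsCoprime k (p : ℤ) :=
          ((Nat.prime_iff_prime_int.1 hp).coprime_iff_not_dvd.2 hk).symm
        obtain ⟨u, v, huv⟩ := hc
        have h2 : y ^ k ∈ A ⊔ B := by
          have := Subgroup.mul_mem _ (Subgroup.inv_mem _ (Subgroup.mem_sup_right (S := A) hb))
            (Subgroup.mem_sup_left (T := B) hxA)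
          rwa [inv_mul_cancel_left] at this
        have e : y = (y ^ k) ^ u := by
          have h3 : y ^ (v * (p : ℤ)) = 1 := by rw [mul_comm, zpow_mul, zpow_natCast, hy, one_zpow]
          calc y = y ^ (u * k + v * p) := by rw [huv, zpow_one]
            _ = (y ^ k) ^ u := by rw [zpow_add, h3, mul_one, mul_comm, zpow_mul]
        rw [e]
        exact Subgroup.zpow_mem _ h2 u
    have h2 := hB.le_of_ge (y := B ⊔ Subgroup.zpowers y) h1 le_sup_left
    exact hn (Subgroup.mem_sup_right (h2 (Subgroup.mem_sup_right (Subgroup.mem_zpowers y))))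
  rw [eq_top_iff]
  intro x _
  have h2 := key 2 (x ^ 3) Nat.prime_two (by rw [← pow_mul]; exact h6 x)
  have h3 := key 3 (x ^ 2) Nat.prime_three (by rw [← pow_mul]; exact h6 x)
  have := Subgroup.mul_mem _ h2 (Subgroup.inv_mem _ h3)
  rwa [show x ^ 3 * (x ^ 2)⁻¹ = x by group] at this

variable {K : Type} [Field K] [NumberField K] [Dat K]

/-! ### Hensel -/

theorem hensel_step {y : Kˣ} {k : ℕ} (hk : 1 ≤ k) (hy : y ∈ P K k) :
    ∃ w ∈ P K 0, y / w ^ 6 ∈ P K (k + 1) := by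
  obtain ⟨c, hc⟩ := Q_dvd36 K
  obtain ⟨j, rfl⟩ := Nat.exists_eq_add_of_le hk
  have hQ := QK_ne K
  have hQc : (Q K : K) = 36 * c := by exact_mod_cast hc
  set a : K := ((y : K) - 1) / (Q K : K) ^ (1 + j + 1) with ha
  have haS : a ∈ Si K := hy
  have hya : (y : K) = 1 + (Q K : K) ^ (1 + j + 1) * a := by rw [ha]; field_simp; ring
  set b : K := 6 * c * (Q K : K) ^ j * a with hb
  have hbS : b ∈ Si K := mul_mem (mul_mem (mul_mem (ofNat_mem _ 6) (natCast_mem _ c))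
    (pow_mem (natCast_mem _ _) j)) haS
  have h1 : ((1 + (Q K : K) * b) - 1) / (Q K : K) ∈ Si K := by
    rwa [add_sub_cancel_left, mul_div_cancel_left₀ _ hQ]
  obtain ⟨hinv, hne⟩ := inv_mem_Si_of_sub_one h1
  refine ⟨Units.mk0 _ hne, by rw [mem_P, zero_add, pow_one]; exact h1, ?_⟩
  rw [mem_P]
  set t : K := (Q K : K) * b with ht
  have htS : t ∈ Si K := mul_mem (natCast_mem _ _) hbS
  have h6 : 6 * t = (Q K : K) ^ (1 + j + 1) * a := by
    rw [ht, hb, pow_succ, pow_add, pow_one]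
    linear_combination (-((Q K : K) * (Q K : K) ^ j * a)) * hQc
  have h7 : t ^ 2 = (Q K : K) ^ (1 + j + 1 + 1) * (c * (Q K : K) ^ j * a ^ 2) := by
    rw [ht, hb, pow_succ, pow_succ, pow_succ, pow_succ, pow_add, pow_one]
    linear_combination (-((Q K : K) ^ 2 * c * ((Q K : K) ^ j) ^ 2 * a ^ 2)) * hQc
  have e : (((y / Units.mk0 _ hne ^ 6 : Kˣ) : K) - 1) / (Q K : K) ^ (1 + j + 1 + 1) =
      -(((1 + t)⁻¹) ^ 6 * ((c * (Q K : K) ^ j * a ^ 2) *
        (15 + 20 * t + 15 * t ^ 2 + 6 * t ^ 3 + t ^ 4))) := by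
    have h8 : (y : K) - (1 + t) ^ 6 = -((Q K : K) ^ (1 + j + 1 + 1) *
        ((c * (Q K : K) ^ j * a ^ 2) * (15 + 20 * t + 15 * t ^ 2 + 6 * t ^ 3 + t ^ 4))) := by
      linear_combination hya - h6 - (15 + 20 * t + 15 * t ^ 2 + 6 * t ^ 3 + t ^ 4) * h7
    push_cast
    rw [Units.val_mk0, div_sub_one (pow_ne_zero _ hne), h8]
    field_simp
  rw [e]
  refine neg_mem (mul_mem (pow_mem hinv 6) (mul_mem (mul_mem (mul_mem (natCast_mem _ c)
    (pow_mem (natCast_mem _ _) j)) (pow_mem haS 2)) ?_))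
  exact add_mem (add_mem (add_mem (add_mem (ofNat_mem _ 15) (mul_mem (ofNat_mem _ 20) htS))
    (mul_mem (ofNat_mem _ 15) (pow_mem htS 2))) (mul_mem (ofNat_mem _ 6) (pow_mem htS 3)))
    (pow_mem htS 4)

/-- an element of `P 1` is a sixth power modulo every `P k` -/
theorem exists_pow_six_near {y : Kˣ} (hy : y ∈ P K 1) (k : ℕ) :
    ∃ w ∈ P K 0, y / w ^ 6 ∈ P K k := by
  have h : ∀ j : ℕ, ∃ w ∈ P K 0, y / w ^ 6 ∈ P K (j + 1) := by
    intro j
    induction j with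
    | zero => exact ⟨1, one_mem _, by simpa using hy⟩
    | succ j ih =>
      obtain ⟨w, hw, h⟩ := ih
      obtain ⟨w', hw', h'⟩ := hensel_step (by omega) h
      exact ⟨w * w', mul_mem hw hw', by rwa [mul_pow, ← div_div]⟩
  obtain ⟨w, hw, h1⟩ := h k
  exact ⟨w, hw, P_mono (by omega) h1⟩

theorem mem_H_iff (k : ℕ) {x : Kˣ} (hx : x ∈ H K) : ∃ w : Kˣ, ∃ y ∈ P K k, x = w ^ 6 * y := by
  obtain ⟨w, y, hy, rfl⟩ := mem_H.1 hx
  obtain ⟨v, -, h⟩ := exists_pow_six_near hy k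
  exact ⟨w * v, _, h, by rw [mul_pow, mul_assoc, mul_div_cancel]⟩

/-- every class modulo `P k` contains an element of `R` -/
theorem exists_R_mem_P (x : Kˣ) (k : ℕ) : ∃ y : Kˣ, (y : K) ∈ R K ∧ y / x ∈ P K k := by
  have hQ := QK_ne K
  have hx := x.ne_zero
  obtain ⟨y, hy, h⟩ := exists_R_near (x : K) (c := x * (Q K : K) ^ (k + 1)) (by positivity)
  have h1 : (y / x - 1) / (Q K : K) ^ (k + 1) ∈ Si K := by
    have : (y / x - 1) / (Q K : K) ^ (k + 1) = (y - x) / (x * (Q K : K) ^ (k + 1)) := by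
      field_simp
    rwa [this]
  have h2 : (y / x - 1) / (Q K : K) ∈ Si K := by
    simpa using div_pow_mem_Si_mono (k := 1) h1 (by omega)
  have h3 : y ≠ 0 := by
    intro h0
    exact (inv_mem_Si_of_sub_one h2).2 (by rw [h0, zero_div])
  refine ⟨Units.mk0 y h3, hy, ?_⟩
  rw [mem_P]; push_cast
  exact h1

/-! ### the ring `Si` -/

theorem exists_dvd_Q_pow {x : Si K} (hx : x ≠ 0) : ∃ k : ℕ, x ∣ (Q K : Si K) ^ k := by
  obtain ⟨k, hk⟩ := exists_pow_mul_mem_Si (x : K)⁻¹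
  refine ⟨k, (dvd_iff_div_mem_Si hx).2 ?_⟩
  push_cast
  rwa [div_eq_mul_inv]

theorem Q_Si_ne : (Q K : Si K) ≠ 0 := by exact_mod_cast Q_ne K

instance : IsPrincipalIdealRing (Si K) := by
  refine IsPrincipalIdealRing.of_finite_primes ?_
  have h1 := Ideal.finite_factors (I := Ideal.span {(Q K : Si K)})
    (by rw [Ne, Ideal.zero_eq_bot, Ideal.span_singleton_eq_bot]; exact Q_Si_ne)
  refine ((h1.image fun v => v.asIdeal).insert ⊥).subset fun I hI => ?_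
  by_cases h0 : I = ⊥
  · exact Or.inl h0
  · refine Or.inr ⟨⟨I, hI, h0⟩, ?_, rfl⟩
    obtain ⟨x, hxI, hx⟩ := Submodule.exists_mem_ne_zero_of_ne_bot h0
    obtain ⟨k, t, ht⟩ := exists_dvd_Q_pow hx
    change I ∣ _
    rw [Ideal.dvd_span_singleton]
    exact Ideal.IsPrime.mem_of_pow_mem hI k (ht ▸ I.mul_mem_right t hxI)

theorem prime_dvd_Q {p : Si K} (hp : Prime p) : p ∣ (Q K : Si K) := by
  obtain ⟨k, hk⟩ := exists_dvd_Q_pow hp.ne_zero
  exact hp.dvd_of_dvd_pow hk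

theorem finite_Rs_Si {n : Si K} (hn : n ≠ 0) : Finite (Rs n) := by
  have h1 : Finite (𝓞 K ⧸ RingHom.ker ((rs n).comp toSi)) := by
    refine Ideal.finiteQuotientOfFreeOfNeBot _ fun h0 => ?_
    obtain ⟨k, hk⟩ := exists_dvd_Q_pow hn
    have h1 : (Q K : 𝓞 K) ^ k ∈ RingHom.ker ((rs n).comp toSi) := by
      rw [RingHom.mem_ker, RingHom.comp_apply, rs_eq_zero]; simpa using hk
    rw [h0, Ideal.mem_bot] at h1
    exact pow_ne_zero k (by exact_mod_cast Q_ne K) h1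
  exact Finite.of_equiv _ (RingHom.quotientKerEquivOfSurjective (toSi_surj hn)).toEquiv

theorem isUnit_Si_iff {x : Si K} (hx : (x : K) ≠ 0) : IsUnit x ↔ Units.mk0 (x : K) hx ∈ Su K := by
  constructor
  · intro h
    obtain ⟨y, hy⟩ := h.exists_right_inv
    have h1 : (x : K) * y = 1 := congrArg (fun t : Si K => (t : K)) hy
    exact ⟨x.2, by rw [Units.val_mk0, ← eq_inv_of_mul_eq_one_right h1]; exact y.2⟩
  · intro h
    exact IsUnit.of_mul_eq_one ⟨_, h.2⟩ (Subtype.ext (mul_inv_cancel₀ hx))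

theorem isUnit_R_iff {x : R K} (hx : (x : K) ≠ 0) : IsUnit x ↔ Units.mk0 (x : K) hx ∈ Ru K := by
  constructor
  · intro h
    obtain ⟨y, hy⟩ := h.exists_right_inv
    have h1 : (x : K) * y = 1 := congrArg (fun t : R K => (t : K)) hy
    exact ⟨x.2, by rw [Units.val_mk0, ← eq_inv_of_mul_eq_one_right h1]; exact y.2⟩
  · intro h
    exact IsUnit.of_mul_eq_one ⟨_, h.2⟩ (Subtype.ext (mul_inv_cancel₀ hx))

instance : Group.FG (Kˣ ⧸ Su K) := by
  classical
  let g : Si K → Kˣ ⧸ Su K := fun x =>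
    if h : (x : K) = 0 then 1 else QuotientGroup.mk (Units.mk0 (x : K) h)
  have g1 : ∀ (x : Si K) (h : (x : K) ≠ 0), g x = QuotientGroup.mk (Units.mk0 (x : K) h) :=
    fun x h => dif_neg h
  let T : Set (Kˣ ⧸ Su K) := g '' (UniqueFactorizationMonoid.factors (Q K : Si K)).toFinset
  have ne : ∀ {x : Si K}, x ≠ 0 → (x : K) ≠ 0 := fun h h0 => h (Subtype.ext h0)
  have gu : ∀ x : Si K, IsUnit x → g x = 1 := fun x h => by
    rw [g1 x (ne h.ne_zero), QuotientGroup.eq_one_iff]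
    exact (isUnit_Si_iff _).1 h
  have gm : ∀ x y : Si K, x ≠ 0 → y ≠ 0 → g (x * y) = g x * g y := fun x y hx hy => by
    rw [g1 x (ne hx), g1 y (ne hy), g1 _ (ne (mul_ne_zero hx hy)), ← QuotientGroup.mk_mul]
    congr 1
    ext; simp
  have key : ∀ x : Si K, x ≠ 0 → g x ∈ Subgroup.closure T := by
    intro x
    induction x using UniqueFactorizationMonoid.induction_on_prime with
    | h₁ => exact fun h => (h rfl).elim
    | h₂ x hx => exact fun _ => by rw [gu x hx]; exact one_mem _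
    | h₃ a p ha hp ih =>
      intro _
      rw [gm p a hp.ne_zero ha]
      refine mul_mem ?_ (ih ha)
      obtain ⟨q, hq, u, hu⟩ := UniqueFactorizationMonoid.exists_mem_factors_of_dvd Q_Si_ne
        hp.irreducible (prime_dvd_Q hp)
      have h1 : g q = g p := by
        rw [← hu, gm _ _ hp.ne_zero u.ne_zero, gu _ u.isUnit]; exact mul_one (g p)
      exact Subgroup.subset_closure ⟨q, by simpa using hq, h1⟩
  refine Group.fg_iff.2 ⟨T, ?_, (Finset.finite_toSet _).image g⟩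
  rw [eq_top_iff]
  intro x _
  obtain ⟨x, rfl⟩ := QuotientGroup.mk_surjective x
  obtain ⟨k, hk⟩ := exists_pow_mul_mem_Si (x : K)
  have h0 : (Q K : K) ^ k * x ≠ 0 := mul_ne_zero (pow_ne_zero _ (QK_ne K)) x.ne_zero
  have h1 := key ⟨_, hk⟩ fun h => h0 (congrArg Subtype.val h)
  have h2 := key ((Q K : Si K) ^ k) (pow_ne_zero _ Q_Si_ne)
  rw [g1 _ h0] at h1
  rw [g1 _ (ne (pow_ne_zero _ Q_Si_ne))] at h2
  have h3 := mul_mem (inv_mem h2) h1
  rw [← QuotientGroup.mk_inv, ← QuotientGroup.mk_mul] at h3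
  have e : (Units.mk0 ((((Q K : Si K) ^ k : Si K)) : K) (ne (pow_ne_zero _ Q_Si_ne)))⁻¹ *
      Units.mk0 (((⟨_, hk⟩ : Si K)) : K) h0 = x := by
    ext
    have := QK_ne K
    simp only [Units.val_mul, Units.val_inv_eq_inv_val, Units.val_mk0]
    push_cast
    field_simp
  rwa [e] at h3

/-- a positive power of every element is a unit of `R` times a unit of `Si` -/
theorem exists_pow_mem_sup (x : Kˣ) : ∃ h : ℕ, h ≠ 0 ∧ x ^ h ∈ Ru K ⊔ Su K := by
  have hQ := QK_ne K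
  obtain ⟨k, hk⟩ := exists_pow_mul_mem_Si (x : K)
  have h0 : (Q K : K) ^ k * x ≠ 0 := mul_ne_zero (pow_ne_zero _ hQ) x.ne_zero
  set y : Si K := ⟨_, hk⟩ with hy
  have hy0 : y ≠ 0 := fun h => h0 (congrArg Subtype.val h)
  set I : Ideal (𝓞 K) := (Ideal.span {y}).comap toSi with hI
  obtain ⟨l, hl⟩ := exists_dvd_Q_pow hy0
  have hQI : (Q K : 𝓞 K) ^ l ∈ I := by
    rw [hI, Ideal.mem_comap, Ideal.mem_span_singleton]; simpa using hl
  have hI0 : I ∈ nonZeroDivisors (Ideal (𝓞 K)) := mem_nonZeroDivisors_of_ne_zero fun h => by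
    rw [h, Ideal.zero_eq_bot, Ideal.mem_bot] at hQI
    exact pow_ne_zero l (by exact_mod_cast Q_ne K) hQI
  set h := Fintype.card (ClassGroup (𝓞 K)) with hh
  have hp : (I ^ h).IsPrincipal := by
    rw [← ClassGroup.mk0_eq_one_iff (pow_mem hI0 h)]
    have : (⟨I ^ h, pow_mem hI0 h⟩ : nonZeroDivisors (Ideal (𝓞 K))) = ⟨I, hI0⟩ ^ h := rfl
    rw [this, map_pow, hh, pow_card_eq_one]
  obtain ⟨g, hg⟩ := hp
  rw [Ideal.submodule_span_eq] at hg
  have hloc := isLocalization_Loc (K := K) (zero_notMem_copT K)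
  have h1 : I.map toSi = Ideal.span {y} :=
    IsLocalization.map_under ((copT (Q K)).map (Nat.castRingHom (𝓞 K))) (Si K) _
  have h2 : Ideal.span {toSi g} = Ideal.span {y ^ h} := by
    rw [← Ideal.span_singleton_pow, ← h1, ← Ideal.map_pow, hg, Ideal.map_span,
      Set.image_singleton]
  obtain ⟨u, hu⟩ := Ideal.span_singleton_eq_span_singleton.1 h2
  have h3 : g ∣ ((Q K : 𝓞 K) ^ l) ^ h := by
    rw [← Ideal.mem_span_singleton, ← hg]; exact Ideal.pow_mem_pow hQI h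
  have h4 : IsUnit (toR g) := by
    refine isUnit_of_dvd_unit (map_dvd toR h3) ?_
    simpa using (isUnit_Q.pow l).pow h
  have hg0 : ((toR g : R K) : K) ≠ 0 := coe_ne_zero h4.ne_zero
  have hu0 : ((u : Si K) : K) ≠ 0 := fun h => u.ne_zero (Subtype.ext h)
  have hQu : Units.mk0 ((Q K : R K) : K) (coe_ne_zero isUnit_Q.ne_zero) ∈ Ru K :=
    (isUnit_R_iff _).1 isUnit_Q
  refine ⟨h, Fintype.card_ne_zero, Subgroup.mem_sup.2 ⟨_, mul_mem ((isUnit_R_iff hg0).1 h4)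
    (inv_mem (pow_mem (pow_mem hQu k) h)), _, (isUnit_Si_iff hu0).1 u.isUnit, ?_⟩⟩
  ext
  have h5 : (g : K) * ((u : Si K) : K) = ((Q K : K) ^ k * x) ^ h :=
    congrArg (fun t : Si K => (t : K)) hu
  simp only [Units.val_mul, Units.val_inv_eq_inv_val, Units.val_mk0, Units.val_pow_eq_pow_val,
    coe_toR]
  push_cast
  rw [mul_right_comm, h5, mul_pow]
  field_simp

variable (K) in
/-- sixth powers of units of `R` -/
def Ru6 : Subgroup Kˣ := (Ru K).map (powMonoidHom 6)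

theorem mem_Ru6 {x : Kˣ} : x ∈ Ru6 K ↔ ∃ η ∈ Ru K, η ^ 6 = x := Iff.rfl

theorem Ru6_le_U : Ru6 K ≤ U K := by
  rintro _ ⟨η, hη, rfl⟩
  exact pow_six_mem_U hη

instance : (Ru6 K ⊔ Su K).FiniteIndex := by
  have h1 : Group.FG (Kˣ ⧸ (Ru6 K ⊔ Su K)) :=
    Group.fg_of_surjective (G := Kˣ ⧸ Su K)
      (f := QuotientGroup.map (Su K) (Ru6 K ⊔ Su K) (MonoidHom.id _) le_sup_right) fun x => by
        obtain ⟨x, rfl⟩ := QuotientGroup.mk_surjective x
        exact ⟨QuotientGroup.mk x, rfl⟩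
  have h2 : Finite (Kˣ ⧸ (Ru6 K ⊔ Su K)) := by
    refine CommGroup.finite_of_fg_isMulTorsion _ fun x => ?_
    obtain ⟨x, rfl⟩ := QuotientGroup.mk_surjective x
    obtain ⟨h, hh, hx⟩ := exists_pow_mem_sup x
    obtain ⟨a, ha, b, hb, hab⟩ := Subgroup.mem_sup.1 hx
    refine isOfFinOrder_iff_pow_eq_one.2 ⟨h * 6, by positivity, ?_⟩
    rw [← QuotientGroup.mk_pow, QuotientGroup.eq_one_iff, pow_mul, ← hab, mul_pow]
    exact mul_mem (Subgroup.mem_sup_left ⟨a, ha, rfl⟩) (Subgroup.mem_sup_right (pow_mem hb 6))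
  exact Subgroup.finiteIndex_of_finite_quotient

theorem relIndex_P_ne (k : ℕ) : (P K k).relIndex (Su K) ≠ 0 := by
  have := finite_Rs_Si (pow_ne_zero (k + 1) (Q_Si_ne (K := K)))
  let f : Su K →* Rs ((Q K : Si K) ^ (k + 1)) :=
    { toFun := fun x => rs _ ⟨x.1, x.2.1⟩
      map_one' := by rw [← map_one (rs _)]; rfl
      map_mul' := fun x y => by rw [← map_mul]; rfl }
  have h1 : f.toHomUnits.ker = (P K k).subgroupOf (Su K) := by
    ext x
    rw [MonoidHom.mem_ker, Subgroup.mem_subgroupOf, mem_P, Units.ext_iff]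
    change rs _ (⟨x.1, x.2.1⟩ : Si K) = 1 ↔ _
    rw [← map_one (rs _), rs_eq, dvd_iff_div_mem_Si (pow_ne_zero _ Q_Si_ne)]
    push_cast
    rfl
  rw [Subgroup.relIndex, ← h1]
  exact Subgroup.FiniteIndex.index_ne_zero

instance (k : ℕ) : (Ru6 K ⊔ P K k).FiniteIndex := by
  have h1 : Ru6 K ⊔ P K k ≤ Ru6 K ⊔ Su K := sup_le_sup_left (P_le_Su k) _
  refine ⟨?_⟩
  rw [← Subgroup.relIndex_mul_index h1]
  refine mul_ne_zero ?_ Subgroup.FiniteIndex.index_ne_zero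
  have e : Ru6 K ⊔ Su K = (Ru6 K ⊔ P K k) ⊔ Su K := by
    rw [sup_assoc, sup_eq_right.2 (P_le_Su k)]
  rw [e, Subgroup.relIndex_sup_left]
  exact ne_zero_of_dvd_ne_zero (relIndex_P_ne k)
    (Subgroup.relIndex_dvd_of_le_left _ le_sup_right)

/-- **fine classes** -/
theorem exists_fine (k : ℕ) : ∃ F : Finset Kˣ, (∀ f ∈ F, (f : K) ∈ R K) ∧
    ∀ x : Kˣ, ∃ η ∈ Ru K, ∃ f ∈ F, ∃ y ∈ P K k, x = η ^ 6 * f * y := by
  classical
  have := Fintype.ofFinite (Kˣ ⧸ (Ru6 K ⊔ P K k))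
  choose g hg1 hg2 using fun x : Kˣ => exists_R_mem_P x k
  refine ⟨univ.image fun c : Kˣ ⧸ (Ru6 K ⊔ P K k) => g c.out, ?_, fun x => ?_⟩
  · intro f hf
    obtain ⟨c, -, rfl⟩ := mem_image.1 hf
    exact hg1 _
  · obtain ⟨⟨b, hb⟩, h⟩ := QuotientGroup.mk_out_eq_mul (Ru6 K ⊔ P K k) x
    obtain ⟨_, ⟨η, hη, rfl⟩, y, hy, rfl⟩ := Subgroup.mem_sup.1 hb
    refine ⟨η⁻¹, inv_mem hη, _, mem_image.2 ⟨QuotientGroup.mk x, mem_univ _, rfl⟩,
      (g (QuotientGroup.mk x : Kˣ ⧸ (Ru6 K ⊔ P K k)).out /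
        (QuotientGroup.mk x : Kˣ ⧸ (Ru6 K ⊔ P K k)).out)⁻¹ * y⁻¹,
      mul_mem (inv_mem (hg2 _)) (inv_mem hy), ?_⟩
    generalize g _ = G
    rw [h]
    change x = η⁻¹ ^ 6 * G * ((G / (x * (η ^ 6 * y)))⁻¹ * y⁻¹)
    ext
    push_cast
    field_simp

instance : (H K).FiniteIndex :=
  Subgroup.finiteIndex_of_le (H := Ru6 K ⊔ P K 1)
    (sup_le (Ru6_le_U.trans inf_le_right) (P_le_H le_rfl))

instance : Finite (J K) := (inferInstance : Finite (Kˣ ⧸ H K))

noncomputable instance : Fintype (J K) := Fintype.ofFinite _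

instance (k : ℕ) : (U K ⊔ P K k).FiniteIndex :=
  Subgroup.finiteIndex_of_le (H := Ru6 K ⊔ P K k) (sup_le_sup_right Ru6_le_U _)

variable (K) in
/-- the classes of the units of `R` -/
noncomputable def JR : Subgroup (J K) := (Ru K).map mkJ

variable (K) in
theorem exists_J0 : ∃ B : Subgroup (J K), JR K ⊓ B = ⊥ ∧ JR K ⊔ B = ⊤ :=
  exists_compl pow_six_J (JR K)

variable (K) in
/-- a complement of the classes of the units of `R` -/
noncomputable def J0 : Subgroup (J K) := (exists_J0 K).choose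

theorem JR_inf_J0 : JR K ⊓ J0 K = ⊥ := (exists_J0 K).choose_spec.1

theorem JR_sup_J0 : JR K ⊔ J0 K = ⊤ := (exists_J0 K).choose_spec.2

theorem exists_JR_mul_J0 (x : J K) : ∃ a ∈ JR K, ∃ b ∈ J0 K, a * b = x :=
  Subgroup.mem_sup.1 (by rw [JR_sup_J0]; trivial)

theorem exists_unit_cl_mem {x : K} (hx : x ≠ 0) : ∃ η ∈ Ru K, cl ((η : K) * x) ∈ J0 K := by
  obtain ⟨a, ha, j, hj, e⟩ := exists_JR_mul_J0 (cl x)
  obtain ⟨η, hη, rfl⟩ := Subgroup.mem_map.1 ha
  refine ⟨η⁻¹, inv_mem hη, ?_⟩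
  have h : cl (((η⁻¹ : Kˣ) : K) * x) = j := by
    rw [cl_mul (Units.ne_zero _) hx, cl_unit, ← e, map_inv, inv_mul_cancel_left]
  rwa [h]

theorem mem_U_of_cl_mem {η : Kˣ} (hη : η ∈ Ru K) (h : cl (η : K) ∈ J0 K) : η ∈ U K := by
  refine ⟨hη, cl_eq_one.1 ?_⟩
  have : cl (η : K) ∈ JR K ⊓ J0 K := ⟨⟨η, hη, (cl_unit η).symm⟩, h⟩
  rwa [JR_inf_J0, Subgroup.mem_bot] at this

end Vale.Agent.P016Z
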