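import Vale.Agent.P016Z.Base.Loc
import Vale.Agent.P016Z.TH.Emb
import Mathlib.NumberTheory.NumberField.Discriminant.Defs
import Mathlib.NumberTheory.NumberField.ClassNumber

/-!
P016, base: the data attached to a number field containing the twelfth roots of unity.
`R K = O[1/Q]` is a principal ideal domain, `Si K` is the ring of elements which are integral at
the primes dividing `Q`.
-/

open NumberField

set_option linter.unusedSectionVars false

namespace Vale.Agent.P016Z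

/-- the natural numbers prime to `Q` -/
def copT (Q : ℕ) : Submonoid ℕ where
  carrier := {m | m.Coprime Q}
  mul_mem' := fun ha hb => Nat.Coprime.mul_left ha hb
  one_mem' := Nat.coprime_one_left Q

/-- the data -/
class Dat (K : Type) [Field K] [NumberField K] where
  Q : ℕ
  z : K
  io : Type
  fin : Fintype io
  C : TH.CM K io
  Q_ne : Q ≠ 0
  dvd36 : 36 ∣ Q
  disc_dvd : (discr K).natAbs ∣ Q
  hz : IsPrimitiveRoot z 12
  sig_z : ∀ j, C.sig j (z ^ 4) = Complex.exp (2 * Real.pi * Complex.I / 3)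
  pid : IsPrincipalIdealRing (Loc K (Submonoid.powers Q))
  dvd : 216 ∣ Q
  dual : ∀ y : K, (∀ o : 𝓞 K, ∃ n : ℤ, Algebra.trace ℚ K (y * o) = n) → IsIntegral ℤ ((Q : K) * y)

section defs

variable (K : Type) [Field K] [NumberField K] [Dat K]

/-- the level -/
abbrev Q : ℕ := Dat.Q K

/-- the primitive twelfth root of unity -/
abbrev z12 : K := Dat.z

/-- the index set of the complex places -/
abbrev io : Type := Dat.io K

instance : Fintype (io K) := Dat.fin

noncomputable instance : DecidableEq (io K) := Classical.decEq _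

/-- the chosen embeddings -/
abbrev cmK : TH.CM K (io K) := Dat.C

instance : Nonempty (io K) := (cmK K).nonempty

/-- the ring `O[1/Q]` -/
abbrev R : Subalgebra (𝓞 K) K := Loc K (Submonoid.powers (Q K))

/-- the elements which are integral at the primes dividing `Q` -/
abbrev Si : Subalgebra (𝓞 K) K := Loc K (copT (Q K))

instance : IsPrincipalIdealRing (R K) := Dat.pid

theorem Q_ne : Q K ≠ 0 := Dat.Q_ne

theorem Q_dvd36 : 36 ∣ Q K := Dat.dvd36

theorem two_le_Q : 2 ≤ Q K := le_trans (by norm_num) (Nat.le_of_dvd (Nat.pos_of_ne_zero (Q_ne K))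
  (Q_dvd36 K))

theorem QK_ne : (Q K : K) ≠ 0 := by exact_mod_cast Q_ne K

theorem zero_notMem_powers : 0 ∉ Submonoid.powers (Q K) := by
  rintro ⟨k, hk⟩
  exact pow_ne_zero k (Q_ne K) hk

theorem zero_notMem_copT : 0 ∉ copT (Q K) := by
  intro h
  have h1 : Nat.Coprime 0 (Q K) := h
  rw [Nat.coprime_zero_left] at h1
  have := two_le_Q K
  omega

instance : IsDedekindDomain (R K) := isDedekindDomain_Loc (zero_notMem_powers K)

instance : IsDedekindDomain (Si K) := isDedekindDomain_Loc (zero_notMem_copT K)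

end defs

variable {K : Type} [Field K] [NumberField K] [Dat K]

theorem mem_R {x : K} : x ∈ R K ↔ ∃ k : ℕ, IsIntegral ℤ ((Q K : K) ^ k * x) := by
  constructor
  · rintro ⟨m, ⟨k, rfl⟩, h⟩
    exact ⟨k, by simpa using h⟩
  · rintro ⟨k, h⟩
    exact ⟨Q K ^ k, ⟨k, rfl⟩, by simpa using h⟩

theorem mem_Si {x : K} : x ∈ Si K ↔ ∃ m : ℕ, m.Coprime (Q K) ∧ IsIntegral ℤ ((m : K) * x) :=
  Iff.rfl

theorem mem_R_of_isIntegral {x : K} (h : IsIntegral ℤ x) : x ∈ R K := mem_Loc_of_isIntegral h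

theorem mem_Si_of_isIntegral {x : K} (h : IsIntegral ℤ x) : x ∈ Si K := mem_Loc_of_isIntegral h

theorem inv_Q_mem_R : ((Q K : K))⁻¹ ∈ R K := inv_mem_Loc (Submonoid.mem_powers _)

theorem div_Q_pow_mem_R {x : K} (hx : x ∈ R K) (k : ℕ) : x / (Q K : K) ^ k ∈ R K := by
  rw [div_eq_mul_inv, ← inv_pow]
  exact mul_mem hx (pow_mem inv_Q_mem_R k)

theorem inv_mem_Si {m : ℕ} (hm : m.Coprime (Q K)) : ((m : K))⁻¹ ∈ Si K := inv_mem_Loc hm

theorem ne_zero_of_coprime {m : ℕ} (hm : m.Coprime (Q K)) : m ≠ 0 := by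
  rintro rfl
  exact zero_notMem_copT K hm

theorem isUnit_Q : IsUnit (Q K : R K) := isUnit_natCast_Loc (Submonoid.mem_powers _) (Q_ne K)

theorem isUnit_of_dvd_Q_pow {m k : ℕ} (h : m ∣ Q K ^ k) : IsUnit (m : R K) := by
  refine isUnit_of_dvd_unit (Nat.cast_dvd_cast h) ?_
  push_cast
  exact isUnit_Q.pow k

theorem isUnit_six : IsUnit (6 : R K) := by
  have h : 6 ∣ Q K ^ 1 := by rw [pow_one]; exact Dvd.dvd.trans (by norm_num) (Q_dvd36 K)
  simpa using isUnit_of_dvd_Q_pow (K := K) h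

theorem bezout (k : ℕ) {m : ℕ} (hm : m.Coprime (Q K)) :
    ∃ a b : ℤ, (a : K) * (Q K : K) ^ k + (b : K) * (m : K) = 1 := by
  obtain ⟨a, b, h⟩ := Nat.isCoprime_iff_coprime.2 (hm.symm.pow_left k)
  refine ⟨a, b, ?_⟩
  have := congrArg (Int.cast : ℤ → K) h
  push_cast at this
  exact this

/-- `O = R ∩ Si` -/
theorem isIntegral_of_mem {x : K} (h1 : x ∈ R K) (h2 : x ∈ Si K) : IsIntegral ℤ x := by
  obtain ⟨k, hk⟩ := mem_R.1 h1
  obtain ⟨m, hm, h⟩ := h2
  obtain ⟨a, b, hab⟩ := bezout k hm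
  have : x = (a : K) * ((Q K : K) ^ k * x) + (b : K) * ((m : K) * x) := by
    linear_combination (-x) * hab
  rw [this]
  exact ((isIntegral_intCast a).mul hk).add ((isIntegral_intCast b).mul h)

/-- every element becomes integral at `S` after multiplication by a power of `Q` -/
theorem exists_pow_mul_mem_Si (x : K) : ∃ k : ℕ, (Q K : K) ^ k * x ∈ Si K := by
  obtain ⟨d, hd, h⟩ := exists_den x
  obtain ⟨k, m, h1, -, h3⟩ := exists_split (Q K) hd
  refine ⟨k, m, h1, ?_⟩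
  have := isIntegral_mul_of_dvd h3 h
  push_cast at this
  rwa [mul_comm ((Q K : K) ^ k), mul_assoc] at this

theorem pow_mul_mem_Si_mono {x : K} {k l : ℕ} (h : (Q K : K) ^ k * x ∈ Si K) (hkl : k ≤ l) :
    (Q K : K) ^ l * x ∈ Si K := by
  obtain ⟨d, rfl⟩ := Nat.exists_eq_add_of_le hkl
  rw [pow_add, mul_comm ((Q K : K) ^ k), mul_assoc]
  exact mul_mem (pow_mem (natCast_mem _ _) d) h

theorem div_pow_mem_Si_mono {x : K} {k l : ℕ} (h : x / (Q K : K) ^ l ∈ Si K) (hkl : k ≤ l) :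
    x / (Q K : K) ^ k ∈ Si K := by
  obtain ⟨d, rfl⟩ := Nat.exists_eq_add_of_le hkl
  have hQ := QK_ne K
  have : x / (Q K : K) ^ k = (Q K : K) ^ d * (x / (Q K : K) ^ (k + d)) := by
    rw [pow_add]; field_simp
  rw [this]
  exact mul_mem (pow_mem (natCast_mem _ _) d) h

/-- every element lies in `R` after multiplication by an integer prime to `Q` -/
theorem exists_coprime_mul_mem_R (x : K) : ∃ m : ℕ, m.Coprime (Q K) ∧ (m : K) * x ∈ R K := by
  obtain ⟨d, hd, h⟩ := exists_den x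
  obtain ⟨k, m, h1, -, h3⟩ := exists_split (Q K) hd
  refine ⟨m, h1, mem_R.2 ⟨k, ?_⟩⟩
  have := isIntegral_mul_of_dvd h3 h
  push_cast at this
  rwa [mul_assoc] at this

/-- `K = R + Si` -/
theorem exists_add (x : K) : ∃ y ∈ R K, x - y ∈ Si K := by
  obtain ⟨k, hk⟩ := exists_pow_mul_mem_Si x
  obtain ⟨m, hm, h⟩ := exists_coprime_mul_mem_R x
  obtain ⟨a, b, hab⟩ := bezout k hm
  refine ⟨(b : K) * ((m : K) * x), mul_mem (intCast_mem _ b) h, ?_⟩
  have : x - (b : K) * ((m : K) * x) = (a : K) * ((Q K : K) ^ k * x) := by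
    linear_combination (-x) * hab
  rw [this]
  exact mul_mem (intCast_mem _ a) hk

/-- approximation at `S` by elements of `R` -/
theorem exists_R_near (x : K) {c : K} (hc : c ≠ 0) : ∃ y ∈ R K, (y - x) / c ∈ Si K := by
  obtain ⟨k, hk⟩ := exists_pow_mul_mem_Si c⁻¹
  obtain ⟨y, hy, h⟩ := exists_add (x / (Q K : K) ^ k)
  refine ⟨(Q K : K) ^ k * y, mul_mem (pow_mem (natCast_mem _ _) k) hy, ?_⟩
  have hQ := QK_ne K
  have : ((Q K : K) ^ k * y - x) / c = -(((Q K : K) ^ k * c⁻¹) * (x / (Q K : K) ^ k - y)) := by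
    field_simp; ring
  rw [this]
  exact neg_mem (mul_mem hk h)

/-- simultaneous approximation at `S` and modulo an element of `R` -/
theorem exists_R_near_mod (a n : R K) (hn : n ≠ 0) (x : K) {c : K} (hc : c ≠ 0) :
    ∃ y : R K, n ∣ y - a ∧ ((y : K) - x) / c ∈ Si K := by
  have hn' : (n : K) ≠ 0 := fun h => hn (Subtype.ext h)
  obtain ⟨t, ht, h⟩ := exists_R_near ((x - a) / n) (c := c / n) (div_ne_zero hc hn')
  refine ⟨a + n * ⟨t, ht⟩, ⟨⟨t, ht⟩, by ring⟩, ?_⟩
  have : (((a + n * ⟨t, ht⟩ : R K) : K) - x) / c = (t - (x - a) / n) / (c / n) := by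
    push_cast; field_simp; ring
  rwa [this]

/-- `Q^k O + n R = R` -/
theorem exists_small_mod (a n : R K) (hn : n ≠ 0) (k : ℕ) :
    ∃ y : 𝓞 K, n ∣ (Q K : R K) ^ k * algebraMap (𝓞 K) (R K) y - a := by
  have hQ := QK_ne K
  obtain ⟨y, hy, h⟩ := exists_R_near_mod a n hn 0 (c := (Q K : K) ^ k) (pow_ne_zero _ hQ)
  rw [sub_zero] at h
  refine ⟨⟨_, isIntegral_of_mem (div_Q_pow_mem_R y.2 k) h⟩, ?_⟩
  have e : (Q K : R K) ^ k * algebraMap (𝓞 K) (R K)
      ⟨_, isIntegral_of_mem (div_Q_pow_mem_R y.2 k) h⟩ = y := by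
    refine Subtype.ext ?_
    change (((Q K : R K) ^ k : R K) : K) * ((y : K) / (Q K : K) ^ k) = y
    push_cast
    field_simp
  rwa [e]

/-- a nonzero element of `R` divides an integer prime to `Q` -/
theorem exists_coprime_dvd {n : R K} (hn : n ≠ 0) : ∃ m : ℕ, m.Coprime (Q K) ∧ n ∣ (m : R K) := by
  have hn' : (n : K) ≠ 0 := fun h => hn (Subtype.ext h)
  obtain ⟨m, hm, h⟩ := exists_coprime_mul_mem_R ((n : K)⁻¹)
  refine ⟨m, hm, ⟨_, h⟩, Subtype.ext ?_⟩
  push_cast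
  field_simp

/-- an element congruent to `1` modulo `Q` is invertible in `Si` -/
theorem inv_mem_Si_of_sub_one {y : K} (h : (y - 1) / (Q K : K) ∈ Si K) : y⁻¹ ∈ Si K ∧ y ≠ 0 := by
  have hQ := QK_ne K
  obtain ⟨m, hm, ha⟩ := h
  have hm0 : (m : K) ≠ 0 := by exact_mod_cast ne_zero_of_coprime hm
  set a : 𝓞 K := ⟨_, ha⟩ with hadef
  set b : 𝓞 K := (m : 𝓞 K) + (Q K : 𝓞 K) * a with hb
  have hbK : (b : K) = m * y := by
    rw [hb]; push_cast
    change (m : K) + (Q K : K) * ((m : K) * ((y - 1) / (Q K : K))) = _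
    field_simp; ring
  have hcop : IsCoprime b (Q K : 𝓞 K) := by
    have h1 : IsCoprime (m : 𝓞 K) (Q K : 𝓞 K) := by
      simpa using (Nat.isCoprime_iff_coprime.2 hm).map (Int.castRingHom (𝓞 K))
    exact h1.add_mul_left_left a
  have hb0 : b ≠ 0 := by
    rintro h0
    rw [h0, isCoprime_zero_left] at hcop
    have h2 := hcop.map (Algebra.norm ℤ (S := 𝓞 K))
    rw [show (Q K : 𝓞 K) = algebraMap ℤ (𝓞 K) (Q K : ℤ) by simp, Algebra.norm_algebraMap] at h2
    have h3 := (isUnit_pow_iff Module.finrank_pos.ne').1 h2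
    have h4 := two_le_Q K
    rcases Int.isUnit_iff.1 h3 with h5 | h5 <;> omega
  have hy0 : y ≠ 0 := by
    rintro rfl
    apply hb0
    ext; rw [hbK]; simp
  refine ⟨?_, hy0⟩
  obtain ⟨k, hk⟩ := exists_pow_mul_mem_Si (K := K) y⁻¹
  obtain ⟨u, v, huv⟩ := hcop.pow_right (n := k)
  have h1 := congrArg (fun t : 𝓞 K => (t : K)) huv
  simp only [map_add, map_mul, map_pow, map_natCast, map_one] at h1
  have h2 : algebraMap (𝓞 K) K b = m * y := hbK
  rw [h2] at h1
  have : y⁻¹ = algebraMap (𝓞 K) K u * m + algebraMap (𝓞 K) K v * ((Q K : K) ^ k * y⁻¹) := by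
    field_simp
    linear_combination -h1
  rw [this]
  exact add_mem (mul_mem (Subalgebra.algebraMap_mem _ u) (natCast_mem _ m))
    (mul_mem (Subalgebra.algebraMap_mem _ v) hk)

section groups

variable (K)

/-- the units of `R`, inside `Kˣ` -/
def Ru : Subgroup Kˣ where
  carrier := {x | (x : K) ∈ R K ∧ ((x : K))⁻¹ ∈ R K}
  mul_mem' := fun {a b} ha hb => ⟨by push_cast; exact mul_mem ha.1 hb.1, by
    push_cast; rw [mul_inv]; exact mul_mem ha.2 hb.2⟩
  one_mem' := ⟨by simp [one_mem], by simp [one_mem]⟩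
  inv_mem' := fun {a} ha => ⟨by simpa using ha.2, by simpa using ha.1⟩

/-- the units of `Si`, inside `Kˣ` -/
def Su : Subgroup Kˣ where
  carrier := {x | (x : K) ∈ Si K ∧ ((x : K))⁻¹ ∈ Si K}
  mul_mem' := fun {a b} ha hb => ⟨by push_cast; exact mul_mem ha.1 hb.1, by
    push_cast; rw [mul_inv]; exact mul_mem ha.2 hb.2⟩
  one_mem' := ⟨by simp [one_mem], by simp [one_mem]⟩
  inv_mem' := fun {a} ha => ⟨by simpa using ha.2, by simpa using ha.1⟩

variable {K} in
theorem mem_Si_of_sub_one {y : K} {k : ℕ} (h : (y - 1) / (Q K : K) ^ k ∈ Si K) : y ∈ Si K := by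
  have hQ := QK_ne K
  have : y = 1 + (Q K : K) ^ k * ((y - 1) / (Q K : K) ^ k) := by field_simp; ring
  rw [this]
  exact add_mem (one_mem _) (mul_mem (pow_mem (natCast_mem _ _) k) h)

/-- the elements congruent to `1` modulo `Q^(k+1)` at the primes dividing `Q` -/
def P (k : ℕ) : Subgroup Kˣ where
  carrier := {y | ((y : K) - 1) / (Q K : K) ^ (k + 1) ∈ Si K}
  mul_mem' := fun {a b} ha hb => by
    have : (((a * b : Kˣ) : K) - 1) / (Q K : K) ^ (k + 1) =
        (a : K) * (((b : K) - 1) / (Q K : K) ^ (k + 1)) + ((a : K) - 1) / (Q K : K) ^ (k + 1) := by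
      push_cast; ring
    change _ ∈ Si K
    rw [this]
    exact add_mem (mul_mem (mem_Si_of_sub_one ha) hb) ha
  one_mem' := by
    change _ ∈ Si K
    simp
  inv_mem' := fun {a} ha => by
    have h1 : ((a : K) - 1) / (Q K : K) ∈ Si K := by
      simpa using div_pow_mem_Si_mono (k := 1) ha (by omega)
    have : (((a⁻¹ : Kˣ) : K) - 1) / (Q K : K) ^ (k + 1) =
        -((a : K)⁻¹ * (((a : K) - 1) / (Q K : K) ^ (k + 1))) := by
      have := a.ne_zero
      push_cast; field_simp; ring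
    change _ ∈ Si K
    rw [this]
    exact neg_mem (mul_mem (inv_mem_Si_of_sub_one h1).1 ha)

/-- sixth powers times elements congruent to `1` modulo `Q²` -/
def H : Subgroup Kˣ := (powMonoidHom 6 : Kˣ →* Kˣ).range ⊔ P K 1

/-- the finite group of classes -/
def J : Type := Kˣ ⧸ H K

noncomputable instance : CommGroup (J K) :=
  { (inferInstance : Group (Kˣ ⧸ H K)) with
    mul_comm := fun a b => mul_comm (G := Kˣ ⧸ H K) a b }

/-- the units of `R` in the trivial class -/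
def U : Subgroup Kˣ := Ru K ⊓ H K

end groups

theorem mem_P {k : ℕ} {y : Kˣ} : y ∈ P K k ↔ ((y : K) - 1) / (Q K : K) ^ (k + 1) ∈ Si K := Iff.rfl

theorem mem_Ru {x : Kˣ} : x ∈ Ru K ↔ (x : K) ∈ R K ∧ ((x : K))⁻¹ ∈ R K := Iff.rfl

theorem mem_Su {x : Kˣ} : x ∈ Su K ↔ (x : K) ∈ Si K ∧ ((x : K))⁻¹ ∈ Si K := Iff.rfl

theorem P_mono {k l : ℕ} (h : k ≤ l) : P K l ≤ P K k := fun _ hy =>
  div_pow_mem_Si_mono hy (by omega)

theorem P_le_Su (k : ℕ) : P K k ≤ Su K := fun y hy =>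
  ⟨mem_Si_of_sub_one hy, by simpa using mem_Si_of_sub_one ((P K k).inv_mem hy)⟩

theorem mem_H {x : Kˣ} : x ∈ H K ↔ ∃ w : Kˣ, ∃ y ∈ P K 1, x = w ^ 6 * y := by
  rw [H, Subgroup.mem_sup]
  constructor
  · rintro ⟨_, ⟨w, rfl⟩, y, hy, rfl⟩
    exact ⟨w, y, hy, rfl⟩
  · rintro ⟨w, y, hy, rfl⟩
    exact ⟨_, ⟨w, rfl⟩, y, hy, rfl⟩

theorem pow_six_mem_H (w : Kˣ) : w ^ 6 ∈ H K := mem_H.2 ⟨w, 1, one_mem _, (mul_one _).symm⟩

theorem P_le_H {k : ℕ} (hk : 1 ≤ k) : P K k ≤ H K := (P_mono hk).trans le_sup_right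

theorem pow_six_mem_U {w : Kˣ} (hw : w ∈ Ru K) : w ^ 6 ∈ U K :=
  ⟨pow_mem hw 6, pow_six_mem_H w⟩

/-- the class of a unit of `K` -/
noncomputable def mkJ : Kˣ →* J K := QuotientGroup.mk' (H K)

theorem mkJ_surj : Function.Surjective (mkJ : Kˣ → J K) := QuotientGroup.mk'_surjective (H K)

theorem mkJ_eq_one {x : Kˣ} : (mkJ x : J K) = 1 ↔ x ∈ H K := QuotientGroup.eq_one_iff x

theorem mkJ_eq {x y : Kˣ} : (mkJ x : J K) = mkJ y ↔ x⁻¹ * y ∈ H K := QuotientGroup.eq

/-- a homomorphism which is trivial on `H` factors through `J` -/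
noncomputable def liftJ {G : Type*} [Monoid G] (f : Kˣ →* G) (h : ∀ x ∈ H K, f x = 1) :
    J K →* G := QuotientGroup.lift (H K) f h

@[simp] theorem liftJ_mkJ {G : Type*} [Monoid G] (f : Kˣ →* G) (h : ∀ x ∈ H K, f x = 1) (x : Kˣ) :
    liftJ f h (mkJ x) = f x := rfl

/-- the class of an element of `K` (trivial for `0`) -/
noncomputable def cl (x : K) : J K := by
  classical exact if h : x = 0 then 1 else mkJ (Units.mk0 x h)

theorem cl_unit (x : Kˣ) : cl (x : K) = mkJ x := by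
  rw [cl, dif_neg x.ne_zero, Units.mk0_val]

theorem cl_of_ne {x : K} (hx : x ≠ 0) : cl x = mkJ (Units.mk0 x hx) := cl_unit (Units.mk0 x hx)

theorem cl_zero : cl (0 : K) = 1 := by rw [cl, dif_pos rfl]

theorem cl_mul {x y : K} (hx : x ≠ 0) (hy : y ≠ 0) : cl (x * y) = cl x * cl y := by
  have := cl_unit (Units.mk0 x hx * Units.mk0 y hy)
  rw [map_mul, ← cl_unit, ← cl_unit] at this
  simpa using this

theorem cl_one : cl (1 : K) = 1 := by simpa using cl_unit (1 : Kˣ)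

theorem cl_pow {x : K} (hx : x ≠ 0) (n : ℕ) : cl (x ^ n) = cl x ^ n := by
  have := cl_unit (Units.mk0 x hx ^ n)
  rw [map_pow, ← cl_unit] at this
  simpa using this

theorem cl_inv {x : K} (hx : x ≠ 0) : cl x⁻¹ = (cl x)⁻¹ := by
  have := cl_unit (Units.mk0 x hx)⁻¹
  rw [map_inv, ← cl_unit] at this
  simpa using this

theorem cl_eq_one {x : Kˣ} : cl (x : K) = 1 ↔ x ∈ H K := by
  rw [cl_unit, mkJ_eq_one]

theorem cl_eq_iff {x y : Kˣ} : cl (x : K) = cl (y : K) ↔ x⁻¹ * y ∈ H K := by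
  rw [cl_unit, cl_unit, mkJ_eq]

/-- two nonzero elements in the same class differ by an element of `H` -/
theorem exists_H_of_cl_eq {x y : K} (hx : x ≠ 0) (hy : y ≠ 0) (h : cl x = cl y) :
    ∃ η ∈ H K, y = η * x := by
  refine ⟨(Units.mk0 x hx)⁻¹ * Units.mk0 y hy, cl_eq_iff.1 h, ?_⟩
  simp only [Units.val_mul, Units.val_inv_eq_inv_val, Units.val_mk0]
  field_simp

theorem cl_H_mul {η : Kˣ} (hη : η ∈ H K) (x : K) : cl (η * x) = cl x := by
  by_cases hx : x = 0
  · rw [hx, mul_zero]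
  · rw [cl_mul η.ne_zero hx, cl_eq_one.2 hη, one_mul]

theorem pow_six_J (j : J K) : j ^ 6 = 1 := by
  obtain ⟨x, rfl⟩ := mkJ_surj j
  rw [← map_pow, mkJ_eq_one]
  exact pow_six_mem_H x

/-- the argument `∏ σ_j x / |σ_j x|` -/
noncomputable def alp (x : K) : ℂ := ∏ j, (cmK K).sig j x / (‖(cmK K).sig j x‖ : ℂ)

theorem alp_mul (x y : K) : alp (x * y) = alp x * alp y := by
  simp only [alp, map_mul, norm_mul, ← Finset.prod_mul_distrib]
  refine Finset.prod_congr rfl fun j _ => ?_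
  push_cast; ring

theorem alp_one : alp (1 : K) = 1 := by simp [alp]

theorem alp_zero : alp (0 : K) = 0 := by simp [alp]

theorem norm_alp {x : K} (hx : x ≠ 0) : ‖alp x‖ = 1 := by
  rw [alp, norm_prod]
  refine Finset.prod_eq_one fun j _ => ?_
  have : ‖(cmK K).sig j x‖ ≠ 0 := norm_ne_zero_iff.2 ((map_ne_zero _).2 hx)
  rw [norm_div, Complex.norm_real, norm_norm, div_self this]

end Vale.Agent.P016Z
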