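import Mathlib.NumberTheory.NumberField.Basic
import Mathlib.NumberTheory.NumberField.Norm
import Mathlib.RingTheory.DedekindDomain.PID
import Mathlib.RingTheory.DedekindDomain.Dvr
import Mathlib.RingTheory.Ideal.Norm.AbsNorm
import Mathlib.Tactic

/-!
P016, base: localisations of the ring of integers of a number field at a multiplicative set of
natural numbers, as subalgebras of the field.
-/

open NumberField

set_option linter.unusedSectionVars false

namespace Vale.Agent.P016Z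

variable (K : Type) [Field K] [NumberField K]

/-- the elements `x` of `K` such that `m x` is integral for some `m ∈ T` -/
def Loc (T : Submonoid ℕ) : Subalgebra (𝓞 K) K where
  carrier := {x | ∃ m ∈ T, IsIntegral ℤ ((m : K) * x)}
  mul_mem' := by
    rintro a b ⟨m, hm, ha⟩ ⟨n, hn, hb⟩
    refine ⟨m * n, T.mul_mem hm hn, ?_⟩
    have : ((m * n : ℕ) : K) * (a * b) = ((m : K) * a) * ((n : K) * b) := by push_cast; ring
    rw [this]; exact ha.mul hb
  add_mem' := by
    rintro a b ⟨m, hm, ha⟩ ⟨n, hn, hb⟩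
    refine ⟨m * n, T.mul_mem hm hn, ?_⟩
    have : ((m * n : ℕ) : K) * (a + b) = (n : K) * ((m : K) * a) + (m : K) * ((n : K) * b) := by
      push_cast; ring
    rw [this]
    exact ((isIntegral_natCast n).mul ha).add ((isIntegral_natCast m).mul hb)
  algebraMap_mem' := fun x => ⟨1, T.one_mem, by simpa using x.isIntegral_coe⟩

variable {K}

theorem mem_Loc {T : Submonoid ℕ} {x : K} :
    x ∈ Loc K T ↔ ∃ m ∈ T, IsIntegral ℤ ((m : K) * x) := Iff.rfl

theorem mem_Loc_of_isIntegral {T : Submonoid ℕ} {x : K} (hx : IsIntegral ℤ x) : x ∈ Loc K T :=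
  ⟨1, T.one_mem, by simpa using hx⟩

theorem coe_mem_Loc {T : Submonoid ℕ} (x : 𝓞 K) : (x : K) ∈ Loc K T :=
  mem_Loc_of_isIntegral x.isIntegral_coe

theorem inv_mem_Loc {T : Submonoid ℕ} {m : ℕ} (hm : m ∈ T) : ((m : K))⁻¹ ∈ Loc K T := by
  refine ⟨m, hm, ?_⟩
  by_cases h : (m : K) = 0
  · simp [h, isIntegral_zero]
  · rw [mul_inv_cancel₀ h]; exact isIntegral_one

theorem isUnit_natCast_Loc {T : Submonoid ℕ} {m : ℕ} (hm : m ∈ T) (h0 : m ≠ 0) :
    IsUnit (m : Loc K T) := by
  refine IsUnit.of_mul_eq_one ⟨_, inv_mem_Loc hm⟩ (Subtype.ext ?_)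
  have : (m : K) ≠ 0 := by exact_mod_cast h0
  simp [this]

theorem isLocalization_Loc {T : Submonoid ℕ} (hT : 0 ∉ T) :
    IsLocalization (T.map (Nat.castRingHom (𝓞 K))) (Loc K T) where
  map_units := by
    rintro ⟨y, m, hm, rfl⟩
    have h0 : m ≠ 0 := fun h => hT (h ▸ hm)
    simpa using isUnit_natCast_Loc (K := K) hm h0
  surj := by
    rintro ⟨x, m, hm, hx⟩
    refine ⟨(⟨_, hx⟩, ⟨(m : 𝓞 K), m, hm, rfl⟩), Subtype.ext ?_⟩
    change x * ((m : 𝓞 K) : K) = (m : K) * x
    simp [mul_comm]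
  exists_of_eq := by
    intro x y h
    refine ⟨1, ?_⟩
    have h1 : (x : K) = (y : K) := congrArg (fun t : Loc K T => (t : K)) h
    rw [RingOfIntegers.ext h1]

theorem map_le_nzd {T : Submonoid ℕ} (hT : 0 ∉ T) :
    T.map (Nat.castRingHom (𝓞 K)) ≤ nonZeroDivisors (𝓞 K) := by
  rintro y ⟨m, hm, rfl⟩
  have h0 : m ≠ 0 := fun h => hT (h ▸ hm)
  refine mem_nonZeroDivisors_of_ne_zero ?_
  simpa using h0

theorem isDedekindDomain_Loc {T : Submonoid ℕ} (hT : 0 ∉ T) : IsDedekindDomain (Loc K T) :=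
  haveI := isLocalization_Loc (K := K) hT
  IsLocalization.isDedekindDomain (𝓞 K) (map_le_nzd hT) _

instance (T : Submonoid ℕ) : IsFractionRing (Loc K T) K where
  map_units := by
    rintro ⟨y, hy⟩
    have : y ≠ 0 := nonZeroDivisors.ne_zero hy
    exact IsUnit.mk0 _ (by simpa using this)
  surj := by
    intro x
    obtain ⟨a, b, hb, rfl⟩ := IsFractionRing.div_surjective (A := 𝓞 K) x
    have hb0 : b ≠ 0 := nonZeroDivisors.ne_zero hb
    have hb1 : (b : K) ≠ 0 := by exact_mod_cast hb0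
    refine ⟨(⟨a, coe_mem_Loc a⟩, ⟨⟨b, coe_mem_Loc b⟩, mem_nonZeroDivisors_of_ne_zero ?_⟩), ?_⟩
    · intro h; exact hb1 (congrArg Subtype.val h)
    · change (a : K) / (b : K) * (b : K) = (a : K)
      field_simp
  exists_of_eq := by
    intro x y h
    exact ⟨1, by rw [Subtype.ext h]⟩

/-- every element of `K` has a positive denominator -/
theorem exists_den (x : K) : ∃ d : ℕ, d ≠ 0 ∧ IsIntegral ℤ ((d : K) * x) := by
  have hx : IsAlgebraic ℤ x :=
    (IsFractionRing.isAlgebraic_iff ℤ ℚ K).2 (Algebra.IsAlgebraic.isAlgebraic x)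
  obtain ⟨d, hd, h⟩ := hx.exists_integral_multiple
  refine ⟨d.natAbs, Int.natAbs_ne_zero.2 hd, ?_⟩
  rw [zsmul_eq_mul] at h
  rcases Int.natAbs_eq d with h1 | h1
  · rw [h1] at h; simpa using h
  · rw [h1] at h; simpa using h.neg

/-- every nonzero integral element divides a positive integer -/
theorem exists_nat_mul (x : K) : ∃ d : ℕ, d ≠ 0 ∧ IsIntegral ℤ ((d : K) / x) := by
  obtain ⟨d, hd, h⟩ := exists_den x⁻¹
  exact ⟨d, hd, by rwa [div_eq_mul_inv]⟩

/-- splitting of a positive integer into a part dividing a power of `Q` and a part prime to `Q` -/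
theorem exists_split (Q : ℕ) {d : ℕ} (hd : d ≠ 0) :
    ∃ k m : ℕ, m.Coprime Q ∧ m ∣ d ∧ d ∣ Q ^ k * m := by
  induction d using Nat.strong_induction_on with
  | _ d ih =>
    by_cases h : d.Coprime Q
    · exact ⟨0, d, h, dvd_rfl, by simp⟩
    · obtain ⟨e, he⟩ := Nat.gcd_dvd_left d Q
      have hg0 : 0 < Nat.gcd d Q := Nat.gcd_pos_of_pos_left _ (Nat.pos_of_ne_zero hd)
      have hg : 1 < Nat.gcd d Q := by
        have : Nat.gcd d Q ≠ 1 := h
        omega
      have he0 : e ≠ 0 := by rintro rfl; simp at he; exact hd he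
      have hlt : e < d := by
        calc e = 1 * e := (one_mul e).symm
          _ < Nat.gcd d Q * e := Nat.mul_lt_mul_of_pos_right hg (Nat.pos_of_ne_zero he0)
          _ = d := he.symm
      obtain ⟨k, m, h1, h2, h3⟩ := ih e hlt he0
      refine ⟨k + 1, m, h1, h2.trans (Dvd.intro_left _ he.symm), ?_⟩
      calc d = Nat.gcd d Q * e := he
        _ ∣ Q * (Q ^ k * m) := Nat.mul_dvd_mul (Nat.gcd_dvd_right d Q) h3
        _ = Q ^ (k + 1) * m := by ring

theorem isIntegral_mul_of_dvd {a b : ℕ} (h : a ∣ b) {x : K} (hx : IsIntegral ℤ ((a : K) * x)) :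
    IsIntegral ℤ ((b : K) * x) := by
  obtain ⟨c, rfl⟩ := h
  have : ((a * c : ℕ) : K) * x = (c : K) * ((a : K) * x) := by push_cast; ring
  rw [this]; exact (isIntegral_natCast c).mul hx

end Vale.Agent.P016Z
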