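import Vale.Agent.P016Z.Base.Cls
import Vale.Agent.P016Z.Cheb.Basic
import Vale.Agent.P016Z.Ab.Ar
import Mathlib.GroupTheory.Congruence.Hom

/-!
P016, base: the monoid `M K = R / U` and its structure of abstract arithmetic context.
-/

open NumberField

set_option linter.unusedSectionVars false

namespace Vale.Agent.P016Z

variable {K : Type} [Field K] [NumberField K] [Dat K]

/-! ### units of `R` -/

/-- a unit of `R` as a unit of `K` -/
def toK (u : (R K)ˣ) : Kˣ := Units.map ((R K).val : R K →* K) u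

@[simp] theorem coe_toK (u : (R K)ˣ) : (toK u : K) = ((u : R K) : K) := rfl

theorem toK_mem (u : (R K)ˣ) : toK u ∈ Ru K :=
  ⟨(u : R K).2, by rw [← Units.val_inv_eq_inv_val]; exact ((u⁻¹ : (R K)ˣ) : R K).2⟩

/-- an element of `Ru K` as a unit of `R` -/
def ofK (η : Kˣ) (h : η ∈ Ru K) : (R K)ˣ where
  val := ⟨η, h.1⟩
  inv := ⟨(η : K)⁻¹, h.2⟩
  val_inv := Subtype.ext (mul_inv_cancel₀ η.ne_zero)
  inv_val := Subtype.ext (inv_mul_cancel₀ η.ne_zero)

@[simp] theorem coe_ofK (η : Kˣ) (h : η ∈ Ru K) : (((ofK η h : (R K)ˣ) : R K) : K) = η := rfl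

theorem associated_iff_Ru {x y : R K} : Associated x y ↔ ∃ η ∈ Ru K, (y : K) = η * x := by
  constructor
  · rintro ⟨u, rfl⟩
    exact ⟨toK u, toK_mem u, by push_cast; rw [coe_toK, mul_comm]⟩
  · rintro ⟨η, hη, h⟩
    exact ⟨ofK η hη, Subtype.ext (by push_cast; rw [coe_ofK, h, mul_comm])⟩

/-! ### the quotient -/

variable (K) in
/-- the congruence defined by `U` -/
def conU : Con (R K) where
  r := fun x y => ∃ η ∈ U K, (y : K) = η * x
  iseqv :=
    { refl := fun x => ⟨1, one_mem _, by simp⟩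
      symm := fun ⟨η, hη, h⟩ => ⟨η⁻¹, inv_mem hη, by rw [h]; simp⟩
      trans := fun ⟨η, hη, h⟩ ⟨η', hη', h'⟩ => ⟨η' * η, mul_mem hη' hη, by
        rw [h', h, Units.val_mul, mul_assoc]⟩ }
  mul' := fun ⟨η, hη, h⟩ ⟨η', hη', h'⟩ => ⟨η * η', mul_mem hη hη', by
    push_cast; rw [h, h']; ring⟩

variable (K) in
/-- the monoid `R / U` -/
def M : Type := (conU K).Quotient

noncomputable instance : CommMonoid (M K) := inferInstanceAs (CommMonoid (conU K).Quotient)

/-- the quotient map, as a monoid homomorphism -/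
noncomputable def mkM0 : R K →* M K := (conU K).mk'

theorem mkM0_surj : Function.Surjective (mkM0 : R K → M K) := (conU K).mk'_surjective

noncomputable instance : CommMonoidWithZero (M K) where
  zero := mkM0 0
  zero_mul := fun a => by
    obtain ⟨a, rfl⟩ := mkM0_surj a
    change mkM0 0 * mkM0 a = mkM0 0
    rw [← map_mul, zero_mul]
  mul_zero := fun a => by
    obtain ⟨a, rfl⟩ := mkM0_surj a
    change mkM0 a * mkM0 0 = mkM0 0
    rw [← map_mul, mul_zero]

/-- the quotient map -/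
noncomputable def mkM : R K →*₀ M K := { mkM0 with map_zero' := rfl }

theorem mkM_surj : Function.Surjective (mkM : R K → M K) := mkM0_surj

theorem mkM_eq {x y : R K} : mkM x = mkM y ↔ ∃ η ∈ U K, (y : K) = η * x := (conU K).eq

theorem associated_of_mkM_eq {x y : R K} (h : mkM x = mkM y) : Associated x y := by
  obtain ⟨η, hη, h⟩ := mkM_eq.1 h
  exact associated_iff_Ru.2 ⟨η, hη.1, h⟩

@[simp] theorem mkM_eq_zero {x : R K} : mkM x = 0 ↔ x = 0 := by
  refine ⟨fun h => ?_, fun h => by rw [h, map_zero]⟩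
  rw [← map_zero mkM] at h
  exact (associated_zero_iff_eq_zero x).1 (associated_of_mkM_eq h)

theorem mkM_ne_zero {x : R K} : mkM x ≠ 0 ↔ x ≠ 0 := mkM_eq_zero.not

/-- a representative -/
noncomputable def rep (a : M K) : R K := (mkM_surj a).choose

@[simp] theorem mkM_rep (a : M K) : mkM (rep a) = a := (mkM_surj a).choose_spec

theorem rep_mkM (x : R K) : ∃ η ∈ U K, (rep (mkM x) : K) = η * x :=
  mkM_eq.1 (mkM_rep (mkM x)).symm

@[simp] theorem rep_eq_zero {a : M K} : rep a = 0 ↔ a = 0 := by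
  rw [← mkM_eq_zero, mkM_rep]

theorem rep_ne_zero {a : M K} : rep a ≠ 0 ↔ a ≠ 0 := rep_eq_zero.not

theorem associated_rep (x : R K) : Associated x (rep (mkM x)) :=
  associated_of_mkM_eq (mkM_rep _).symm

@[simp] theorem mkM_dvd {x y : R K} : mkM x ∣ mkM y ↔ x ∣ y := by
  refine ⟨?_, map_dvd mkM⟩
  rintro ⟨c, hc⟩
  obtain ⟨c, rfl⟩ := mkM_surj c
  rw [← map_mul] at hc
  exact (associated_of_mkM_eq hc).dvd_iff_dvd_right.2 (dvd_mul_right x c)

@[simp] theorem isUnit_mkM {x : R K} : IsUnit (mkM x) ↔ IsUnit x := by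
  rw [isUnit_iff_dvd_one, isUnit_iff_dvd_one, ← mkM_dvd, map_one]

instance : IsCancelMulZero (M K) := by
  have key : ∀ a b c : M K, a ≠ 0 → a * b = a * c → b = c := by
    intro a b c ha h
    obtain ⟨a, rfl⟩ := mkM_surj a
    obtain ⟨b, rfl⟩ := mkM_surj b
    obtain ⟨c, rfl⟩ := mkM_surj c
    rw [← map_mul, ← map_mul] at h
    obtain ⟨η, hη, h⟩ := mkM_eq.1 h
    refine mkM_eq.2 ⟨η, hη, mul_left_cancel₀ (coe_ne_zero (mkM_ne_zero.1 ha)) ?_⟩
    push_cast at h
    rw [h]; ring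
  exact
    { mul_left_cancel_of_ne_zero := fun ha _ _ h => key _ _ _ ha h
      mul_right_cancel_of_ne_zero := fun ha _ _ h => key _ _ _ ha (by
        simpa only [mul_comm] using h) }

@[simp] theorem associated_mkM {x y : R K} : Associated (mkM x) (mkM y) ↔ Associated x y := by
  rw [← dvd_dvd_iff_associated, ← dvd_dvd_iff_associated, mkM_dvd, mkM_dvd]

@[simp] theorem prime_mkM {p : R K} : Prime (mkM p) ↔ Prime p := by
  constructor
  · intro h
    refine ⟨mkM_ne_zero.1 h.ne_zero, fun hu => h.not_isUnit (isUnit_mkM.2 hu), fun a b hab => ?_⟩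
    rw [← mkM_dvd, map_mul] at hab
    simpa only [mkM_dvd] using h.dvd_or_dvd hab
  · intro h
    refine ⟨mkM_ne_zero.2 h.ne_zero, fun hu => h.not_isUnit (isUnit_mkM.1 hu), fun a b hab => ?_⟩
    obtain ⟨a, rfl⟩ := mkM_surj a
    obtain ⟨b, rfl⟩ := mkM_surj b
    rw [← map_mul, mkM_dvd] at hab
    simpa only [mkM_dvd] using h.dvd_or_dvd hab

instance : UniqueFactorizationMonoid (M K) := by
  refine UniqueFactorizationMonoid.of_exists_prime_factors fun a ha => ?_
  obtain ⟨a, rfl⟩ := mkM_surj a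
  obtain ⟨f, hf, h⟩ := UniqueFactorizationMonoid.exists_prime_factors a (mkM_ne_zero.1 ha)
  refine ⟨f.map mkM, fun b hb => ?_, ?_⟩
  · obtain ⟨b, hb', rfl⟩ := Multiset.mem_map.1 hb
    exact prime_mkM.2 (hf b hb')
  · rw [← map_multiset_prod]
    exact associated_mkM.2 h

@[simp] theorem squarefree_mkM {x : R K} : Squarefree (mkM x) ↔ Squarefree x := by
  constructor
  · intro h d hd
    exact isUnit_mkM.1 (h _ (by rw [← map_mul]; exact mkM_dvd.2 hd))
  · intro h d hd
    obtain ⟨d, rfl⟩ := mkM_surj d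
    rw [← map_mul, mkM_dvd] at hd
    exact isUnit_mkM.2 (h d hd)

@[simp] theorem isRelPrime_mkM {x y : R K} : IsRelPrime (mkM x) (mkM y) ↔ IsCoprime x y := by
  rw [← isRelPrime_iff_isCoprime]
  constructor
  · intro h d hx hy
    exact isUnit_mkM.1 (h (mkM_dvd.2 hx) (mkM_dvd.2 hy))
  · intro h d hx hy
    obtain ⟨d, rfl⟩ := mkM_surj d
    exact isUnit_mkM.2 (h (mkM_dvd.1 hx) (mkM_dvd.1 hy))

theorem card_factors_mkM (x : R K) : (UniqueFactorizationMonoid.factors (mkM x)).card =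
    (UniqueFactorizationMonoid.factors x).card := by
  by_cases hx : x = 0
  · rw [hx, map_zero]; simp
  have h1 : Multiset.Rel Associated (UniqueFactorizationMonoid.factors (mkM x))
      ((UniqueFactorizationMonoid.factors x).map mkM) := by
    refine UniqueFactorizationMonoid.factors_unique
      (UniqueFactorizationMonoid.irreducible_of_factor) (fun b hb => ?_) ?_
    · obtain ⟨b, hb', rfl⟩ := Multiset.mem_map.1 hb
      exact (prime_mkM.2 (UniqueFactorizationMonoid.prime_of_factor b hb')).irreducible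
    · rw [← map_multiset_prod]
      exact (UniqueFactorizationMonoid.factors_prod (mkM_ne_zero.2 hx)).trans
        (associated_mkM.2 (UniqueFactorizationMonoid.factors_prod hx)).symm
  rw [Multiset.card_eq_card_of_rel h1, Multiset.card_map]

/-! ### invariant functions -/

/-- invariance under `U` -/
def InvU {α : Type*} (f : R K → α) : Prop :=
  ∀ η ∈ U K, ∀ x y : R K, (y : K) = η * x → f y = f x

/-- the function on `M K` induced by a function on `R K` -/
noncomputable def lift {α : Type*} (f : R K → α) (a : M K) : α := f (rep a)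

theorem InvU.eq {α : Type*} {f : R K → α} (hf : InvU f) {x y : R K} (h : mkM x = mkM y) :
    f x = f y := by
  obtain ⟨η, hη, h⟩ := mkM_eq.1 h
  exact (hf η hη x y h).symm

theorem lift_mkM {α : Type*} {f : R K → α} (hf : InvU f) (x : R K) : lift f (mkM x) = f x :=
  hf.eq (mkM_rep _)

theorem invU_iff {α : Type*} {f : R K → α} :
    InvU f ↔ ∀ x y : R K, mkM x = mkM y → f x = f y :=
  ⟨fun hf _ _ h => hf.eq h, fun h η hη x y e => (h x y (mkM_eq.2 ⟨η, hη, e⟩)).symm⟩

theorem invU_comp {α : Type*} (F : M K → α) : InvU fun x : R K => F (mkM x) :=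
  invU_iff.2 fun _ _ h => by rw [h]

theorem invU_of_associated {α : Type*} {f : R K → α}
    (h : ∀ x y : R K, Associated x y → f x = f y) : InvU f :=
  invU_iff.2 fun x y e => h x y (associated_of_mkM_eq e)

theorem invU_Nr : InvU (Nr : R K → ℕ) := invU_of_associated fun _ _ h => Nq_congr h

theorem invU_cl : InvU fun x : R K => cl (x : K) := by
  intro η hη x y h
  simp only [h, cl_H_mul hη.2]

/-- the class of an element of `M K` -/
noncomputable def clM (a : M K) : J K := lift (fun x : R K => cl (x : K)) a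

@[simp] theorem clM_mkM (x : R K) : clM (mkM x) = cl (x : K) := lift_mkM invU_cl x

theorem clM_mul {a b : M K} (ha : a ≠ 0) (hb : b ≠ 0) : clM (a * b) = clM a * clM b := by
  obtain ⟨a, rfl⟩ := mkM_surj a
  obtain ⟨b, rfl⟩ := mkM_surj b
  rw [← map_mul, clM_mkM, clM_mkM, clM_mkM]
  exact cl_mul (coe_ne_zero (mkM_ne_zero.1 ha)) (coe_ne_zero (mkM_ne_zero.1 hb))

theorem clM_one : clM (1 : M K) = 1 := by
  rw [← map_one mkM, clM_mkM]; exact cl_one

/-- associated elements in the same class are equal in `M K` -/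
theorem mkM_eq_of_cl {x y : R K} (h : Associated x y) (hc : cl (x : K) = cl (y : K)) :
    mkM x = mkM y := by
  obtain ⟨η, hη, e⟩ := associated_iff_Ru.1 h
  by_cases hx : x = 0
  · rw [(associated_zero_iff_eq_zero y).1 (hx ▸ h.symm), hx]
  refine mkM_eq.2 ⟨η, ⟨hη, cl_eq_one.1 ?_⟩, e⟩
  rw [e, cl_mul η.ne_zero (coe_ne_zero hx)] at hc
  exact (mul_right_cancel (b := cl (x : K)) (by rw [one_mul]; exact hc)).symm

theorem eq_of_clM {a b : M K} (h : Associated a b) (hc : clM a = clM b) : a = b := by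
  obtain ⟨a, rfl⟩ := mkM_surj a
  obtain ⟨b, rfl⟩ := mkM_surj b
  rw [clM_mkM, clM_mkM] at hc
  exact mkM_eq_of_cl (associated_mkM.1 h) hc

theorem exists_assoc_J0 {a : M K} (ha : a ≠ 0) :
    ∃ b : M K, (b ≠ 0 ∧ clM b ∈ J0 K) ∧ Associated a b := by
  obtain ⟨x, rfl⟩ := mkM_surj a
  have hx := mkM_ne_zero.1 ha
  obtain ⟨η, hη, h⟩ := exists_unit_cl_mem (coe_ne_zero hx)
  refine ⟨mkM (ofK η hη * x), ⟨mkM_ne_zero.2 (mul_ne_zero (Units.ne_zero _) hx), ?_⟩,
    associated_mkM.2 (associated_unit_mul_right _ _ (Units.isUnit _))⟩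
  rw [clM_mkM]
  exact h

theorem eq_of_assoc_J0 {a b : M K} (ha : a ≠ 0) (h1 : clM a ∈ J0 K) (h2 : clM b ∈ J0 K)
    (h : Associated a b) : a = b := by
  obtain ⟨x, rfl⟩ := mkM_surj a
  obtain ⟨y, rfl⟩ := mkM_surj b
  obtain ⟨η, hη, e⟩ := associated_iff_Ru.1 (associated_mkM.1 h)
  refine mkM_eq.2 ⟨η, mem_U_of_cl_mem hη ?_, e⟩
  rw [clM_mkM] at h1 h2
  rw [e, cl_mul η.ne_zero (coe_ne_zero (mkM_ne_zero.1 ha))] at h2
  simpa using mul_mem h2 (inv_mem h1)

/-! ### ideals -/

theorem map_idl (n : R K) : (idl n).map toR = Ideal.span {n} :=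
  have := isLocalization_Loc (K := K) (zero_notMem_powers K)
  IsLocalization.map_under ((Submonoid.powers (Q K)).map (Nat.castRingHom (𝓞 K))) (R K) _

theorem idl_eq_iff {x y : R K} : idl x = idl y ↔ Associated x y := by
  rw [← Ideal.span_singleton_eq_span_singleton]
  exact ⟨fun h => by rw [← map_idl, h, map_idl], fun h => by rw [idl, idl, h]⟩

theorem idl_zero : idl (0 : R K) = ⊥ := by
  rw [eq_bot_iff]
  intro x hx
  have h : toR x = 0 := by simpa using mem_idl.1 hx
  have h1 : (x : K) = 0 := congrArg (fun t : R K => (t : K)) h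
  exact_mod_cast h1

theorem Nr_eq_absNorm' (n : R K) : Nr n = Ideal.absNorm (idl n) := by
  by_cases hn : n = 0
  · rw [hn, Nr_zero, idl_zero, Ideal.absNorm_bot]
  · exact Nr_eq_absNorm hn

theorem summable_absNorm (K : Type) [Field K] [NumberField K] {s : ℝ} (hs : 1 < s) :
    Summable fun I : Ideal (𝓞 K) => (Ideal.absNorm I : ℝ) ^ (-s) := by
  rw [← (Equiv.sigmaFiberEquiv (fun I : Ideal (𝓞 K) => Ideal.absNorm I)).summable_iff]
  have h1 : ((fun I : Ideal (𝓞 K) => (Ideal.absNorm I : ℝ) ^ (-s)) ∘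
      (Equiv.sigmaFiberEquiv (fun I : Ideal (𝓞 K) => Ideal.absNorm I))) =
      fun x => (x.1 : ℝ) ^ (-s) := by
    funext x
    have : Ideal.absNorm ((Equiv.sigmaFiberEquiv
      (fun I : Ideal (𝓞 K) => Ideal.absNorm I)) x) = x.1 := x.2.2
    simp only [Function.comp_apply, this]
  have h2 : ∀ n : ℕ, Finite {I : Ideal (𝓞 K) // Ideal.absNorm I = n} := fun n =>
    (Ideal.finite_setOfPred_absNorm_eq n).to_subtype
  rw [h1, summable_sigma_of_nonneg (fun x => by positivity)]
  refine ⟨fun n => Summable.of_finite, (EP.summable_aK K hs).congr fun n => ?_⟩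
  have := Fintype.ofFinite {I : Ideal (𝓞 K) // Ideal.absNorm I = n}
  simp only [tsum_fintype, Finset.sum_const, Finset.card_univ, nsmul_eq_mul]
  split_ifs with hn
  · subst hn
    rw [Nat.cast_zero, Real.zero_rpow (by linarith), mul_zero]
  · rw [aK, Nat.card_eq_fintype_card]

theorem summable_NM {s : ℝ} (hs : 1 < s) :
    Summable fun a : M K => ((lift Nr a : ℕ) : ℝ) ^ (-s) := by
  have h1 : Summable fun x : Ideal (𝓞 K) × J K =>
      (Ideal.absNorm x.1 : ℝ) ^ (-s) * (fun _ : J K => (1 : ℝ)) x.2 :=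
    (summable_absNorm K hs).mul_of_nonneg Summable.of_finite (fun _ => by positivity)
      (fun _ => zero_le_one)
  have h2 : Function.Injective fun a : M K => ((idl (rep a), clM a) : Ideal (𝓞 K) × J K) := by
    intro a b h
    rw [Prod.mk.injEq] at h
    refine eq_of_clM ?_ h.2
    rw [← mkM_rep a, ← mkM_rep b, associated_mkM]
    exact idl_eq_iff.1 h.1
  refine (h1.comp_injective h2).congr fun a => ?_
  simp only [Function.comp_apply, mul_one, lift, Nr_eq_absNorm']

theorem four_le_Nr {x : R K} (hx : x ≠ 0) (hu : ¬ IsUnit x) : 4 ≤ Nr x := by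
  have h1 := Nr_pos hx
  have h2 : Nr x ≠ 1 := fun h => hu (Nq_eq_one_iff.1 h)
  have h3 : (Nr x).Coprime 36 := (Nr_coprime hx).coprime_dvd_right (Q_dvd36 K)
  by_contra h
  have : Nr x = 2 ∨ Nr x = 3 := by omega
  rcases this with h4 | h4 <;> rw [h4] at h3 <;> norm_num at h3

open Classical in
noncomputable instance : Ab.Ar (M K) where
  N := lift Nr
  Prim := fun a => a ≠ 0 ∧ clM a ∈ J0 K
  J := Option (J K)
  fin := inferInstance
  cm := fun a => if a = 0 then none else some (clM a)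
  N_mul := fun a b => by
    obtain ⟨a, rfl⟩ := mkM_surj a
    obtain ⟨b, rfl⟩ := mkM_surj b
    rw [← map_mul, lift_mkM invU_Nr, lift_mkM invU_Nr, lift_mkM invU_Nr, Nr_mul]
  N_one := by rw [← map_one mkM, lift_mkM invU_Nr, Nr_one]
  N_zero := by rw [← map_zero mkM, lift_mkM invU_Nr, Nr_zero]
  N_pos := fun a ha => Nr_pos (rep_ne_zero.2 ha)
  isUnit_of_N := fun a ha => by
    rw [← mkM_rep a, isUnit_mkM]
    exact Nq_eq_one_iff.1 ha
  summable_N := fun _ hs => summable_NM hs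
  prim_one := ⟨by rw [← map_one mkM, mkM_ne_zero]; exact one_ne_zero,
    by rw [clM_one]; exact one_mem _⟩
  prim_mul := fun a b ha hb => ⟨mul_ne_zero ha.1 hb.1,
    by rw [clM_mul ha.1 hb.1]; exact mul_mem ha.2 hb.2⟩
  prim_ne := fun _ ha => ha.1
  prim_dvd := fun _ _ hk hd => exists_assoc_J0 (ne_zero_of_dvd_ne_zero hk.1 hd)
  prim_eq := fun _ _ ha hb h => eq_of_assoc_J0 ha.1 ha.2 hb.2 h
  four_le := fun a ha h1 => four_le_Nr (rep_ne_zero.2 ha.1) fun hu => h1 (by
    refine eq_of_assoc_J0 ha.1 ha.2 (by rw [clM_one]; exact one_mem _) ?_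
    rw [associated_one_iff_isUnit, ← mkM_rep a, isUnit_mkM]
    exact hu)
  cm_mul := fun c x y h => by
    by_cases hc : c = 0
    · rw [hc, zero_mul, zero_mul]
    by_cases hx : x = 0
    · have hy : y = 0 := by
        by_contra hy
        rw [if_pos hx, if_neg hy] at h
        exact absurd h (by simp)
      rw [hx, hy]
    · have hy : y ≠ 0 := by
        intro hy
        rw [if_neg hx, if_pos hy] at h
        exact absurd h (by simp)
      rw [if_neg hx, if_neg hy, Option.some.injEq] at h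
      rw [if_neg (mul_ne_zero hc hx), if_neg (mul_ne_zero hc hy), clM_mul hc hx, clM_mul hc hy, h]

@[simp] theorem N_mkM (x : R K) : Ab.N (mkM x) = Nr x := lift_mkM invU_Nr x

theorem N_eq (a : M K) : Ab.N a = Nr (rep a) := rfl

theorem prim_iff {a : M K} : Ab.Prim a ↔ a ≠ 0 ∧ clM a ∈ J0 K := Iff.rfl

theorem prim_mkM {x : R K} : Ab.Prim (mkM x) ↔ x ≠ 0 ∧ cl (x : K) ∈ J0 K := by
  rw [prim_iff, mkM_ne_zero, clM_mkM]

theorem sq_mkM {x : R K} : Ab.Sq (mkM x) ↔ (x ≠ 0 ∧ cl (x : K) ∈ J0 K) ∧ Squarefree x := by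
  rw [Ab.Sq, prim_mkM, squarefree_mkM]

theorem cm_eq_iff {a b : M K} : Ab.cm a = Ab.cm b ↔ (a = 0 ↔ b = 0) ∧ clM a = clM b := by
  classical
  change (if a = 0 then none else some (clM a)) = (if b = 0 then none else some (clM b)) ↔ _
  by_cases ha : a = 0 <;> by_cases hb : b = 0 <;> simp [ha, hb]

theorem cm_eq_iff' {a b : M K} (ha : a ≠ 0) (hb : b ≠ 0) : Ab.cm a = Ab.cm b ↔ clM a = clM b := by
  simp [cm_eq_iff, ha, hb]

/-- functions of the class are class functions -/
theorem per_clM (F : J K → ℂ) : Ab.Per fun a : M K => F (clM a) := fun _ _ h =>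
  congrArg F (cm_eq_iff.1 h).2

theorem per_lift {f : R K → ℂ}
    (hf : ∀ x y : R K, x ≠ 0 → y ≠ 0 → cl (x : K) = cl (y : K) → f x = f y) :
    Ab.Per (lift f) := by
  intro a b h
  obtain ⟨h1, h2⟩ := cm_eq_iff.1 h
  by_cases ha : a = 0
  · rw [ha, h1.1 ha]
  · exact hf _ _ (rep_ne_zero.2 ha) (rep_ne_zero.2 fun hb => ha (h1.2 hb)) h2

theorem Per_eq {κ : M K → ℂ} (h : Ab.Per κ) {x y : R K} (hx : x ≠ 0) (hy : y ≠ 0)
    (hc : cl (x : K) = cl (y : K)) : κ (mkM x) = κ (mkM y) :=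
  h _ _ ((cm_eq_iff' (mkM_ne_zero.2 hx) (mkM_ne_zero.2 hy)).2 (by rwa [clM_mkM, clM_mkM]))

theorem cm_cancel (d a b : M K) (hd : d ≠ 0) (ha : a ≠ 0) (hb : b ≠ 0)
    (h : Ab.cm (d * a) = Ab.cm (d * b)) : Ab.cm a = Ab.cm b := by
  rw [cm_eq_iff' (mul_ne_zero hd ha) (mul_ne_zero hd hb), clM_mul hd ha, clM_mul hd hb] at h
  exact (cm_eq_iff' ha hb).2 (mul_left_cancel h)

/-- every nonzero element has an associate which is a chosen generator -/
theorem exists_prim_assoc (a : M K) (ha : a ≠ 0) : ∃ b : M K, Ab.Prim b ∧ Associated a b :=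
  exists_assoc_J0 ha

theorem mob_mkM (x : R K) :
    Ab.mob (mkM x) = (-1) ^ (UniqueFactorizationMonoid.factors x).card := by
  rw [Ab.mob, card_factors_mkM]

open Classical in
theorem cop_mkM (m x : R K) : Ab.cop (mkM m) (mkM x) = if IsCoprime x m then 1 else 0 := by
  unfold Ab.cop
  by_cases h : IsCoprime x m
  · rw [if_pos h, if_pos (isRelPrime_mkM.2 h)]
  · rw [if_neg h, if_neg fun h1 => h (isRelPrime_mkM.1 h1)]

end Vale.Agent.P016Z
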