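import Vale.Agent.P016Z.Base.Dat

/-!
P016, base: residue rings of `R`, the norm `Nr`, sums over residue classes.
-/

open NumberField Finset

set_option linter.unusedSectionVars false

namespace Vale.Agent.P016Z

section general

variable {A : Type} [CommRing A]

/-- the residue ring modulo `c` -/
abbrev Rs (c : A) : Type := A ⧸ Ideal.span ({c} : Set A)

/-- the residue class map -/
abbrev rs (c : A) : A →+* Rs c := Ideal.Quotient.mk (Ideal.span ({c} : Set A))

theorem rs_eq {c x y : A} : rs c x = rs c y ↔ c ∣ x - y := by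
  rw [Ideal.Quotient.eq, Ideal.mem_span_singleton]

theorem rs_eq_zero {c x : A} : rs c x = 0 ↔ c ∣ x := by
  rw [Ideal.Quotient.eq_zero_iff_mem, Ideal.mem_span_singleton]

theorem rs_surj (c : A) : Function.Surjective (rs c) := Ideal.Quotient.mk_surjective

theorem rs_out {m : A} (x : Rs m) : rs m (Quotient.out x) = x := Quotient.out_eq' x

theorem isUnit_rs_iff {c x : A} : IsUnit (rs c x) ↔ IsCoprime x c := by
  constructor
  · intro h
    obtain ⟨y, hy⟩ := h.exists_left_inv
    obtain ⟨y, rfl⟩ := rs_surj c y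
    rw [← map_mul, ← map_one (rs c), rs_eq] at hy
    obtain ⟨t, ht⟩ := hy
    exact ⟨y, -t, by linear_combination ht⟩
  · rintro ⟨u, v, h⟩
    refine IsUnit.of_mul_eq_one (rs c u) ?_
    rw [← map_mul, ← map_one (rs c), rs_eq]
    exact ⟨-v, by linear_combination h⟩

theorem span_eq_of_associated {a b : A} (h : Associated a b) :
    Ideal.span ({a} : Set A) = Ideal.span {b} := by
  ext x
  rw [Ideal.mem_span_singleton, Ideal.mem_span_singleton, h.dvd_iff_dvd_left]

/-- the number of residue classes -/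
noncomputable def Nq (c : A) : ℕ := Nat.card (Rs c)

theorem Nq_eq_index (c : A) : Nq c = (Ideal.span ({c} : Set A)).toAddSubgroup.index := rfl

theorem Nq_congr {a b : A} (h : Associated a b) : Nq a = Nq b := by
  rw [Nq_eq_index, Nq_eq_index, span_eq_of_associated h]

theorem Nq_one : Nq (1 : A) = 1 := by
  rw [Nq_eq_index, Ideal.span_singleton_one]; simp

theorem Nq_eq_one_iff {a : A} : Nq a = 1 ↔ IsUnit a := by
  rw [Nq_eq_index, AddSubgroup.index_eq_one, ← Ideal.span_singleton_eq_top]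
  constructor
  · intro h
    rw [Ideal.eq_top_iff_one]
    have : (1 : A) ∈ (Ideal.span ({a} : Set A)).toAddSubgroup := h ▸ AddSubgroup.mem_top _
    exact this
  · intro h; rw [h]; rfl

theorem Nq_mul [IsDomain A] (a b : A) [Infinite A] : Nq (a * b) = Nq a * Nq b := by
  have h0 : Nq (0 : A) = 0 := by
    rw [Nq_eq_index, Ideal.span_singleton_zero]
    simp
  by_cases ha : a = 0
  · rw [ha, zero_mul, h0, zero_mul]
  have hf : Function.Injective (AddMonoidHom.mulLeft a) := mul_right_injective₀ ha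
  have h1 := AddSubgroup.relIndex_map_map_of_injective
    (Ideal.span ({b} : Set A)).toAddSubgroup ⊤ hf
  have h2 : (Ideal.span ({b} : Set A)).toAddSubgroup.map (AddMonoidHom.mulLeft a) =
      (Ideal.span ({a * b} : Set A)).toAddSubgroup := by
    ext x
    simp only [AddSubgroup.mem_map, Submodule.mem_toAddSubgroup, Ideal.mem_span_singleton,
      AddMonoidHom.coe_mulLeft]
    constructor
    · rintro ⟨y, hy, rfl⟩; exact mul_dvd_mul_left a hy
    · rintro ⟨y, rfl⟩; exact ⟨b * y, dvd_mul_right _ _, by ring⟩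
  have h3 : (⊤ : AddSubgroup A).map (AddMonoidHom.mulLeft a) =
      (Ideal.span ({a} : Set A)).toAddSubgroup := by
    ext x
    simp only [AddSubgroup.mem_map, Submodule.mem_toAddSubgroup, Ideal.mem_span_singleton,
      AddMonoidHom.coe_mulLeft, AddSubgroup.mem_top, true_and]
    exact ⟨fun ⟨y, hy⟩ => ⟨y, hy.symm⟩, fun ⟨y, hy⟩ => ⟨y, hy.symm⟩⟩
  rw [h2, h3, AddSubgroup.relIndex_top_right] at h1
  have h4 : (Ideal.span ({a * b} : Set A)).toAddSubgroup ≤
      (Ideal.span ({a} : Set A)).toAddSubgroup := fun x hx =>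
    Ideal.mem_span_singleton.2 ((dvd_mul_right a b).trans (Ideal.mem_span_singleton.1 hx))
  rw [Nq_eq_index, Nq_eq_index, Nq_eq_index, ← AddSubgroup.relIndex_mul_index h4, h1, mul_comm]

/-- periodic functions -/
def PerM {α : Type*} (m : A) (h : A → α) : Prop := ∀ x y : A, m ∣ x - y → h x = h y

/-- the sum of `h` over a set of representatives of the residue classes modulo `m` -/
noncomputable def rsum (m : A) (h : A → ℂ) : ℂ := ∑ᶠ x : Rs m, h (Quotient.out x)

theorem PerM.out {α : Type*} {m : A} {h : A → α} (hh : PerM m h) (x : A) :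
    h (Quotient.out (rs m x)) = h x := by
  apply hh
  rw [← rs_eq, rs_out]

theorem PerM.mono {α : Type*} {m m' : A} {h : A → α} (hh : PerM m h) (hm : m ∣ m') : PerM m' h :=
  fun x y hxy => hh x y (hm.trans hxy)

theorem PerM.mul {m : A} {h h' : A → ℂ} (hh : PerM m h) (hh' : PerM m h') :
    PerM m (fun x => h x * h' x) := fun x y hxy => by
  simp only [hh x y hxy, hh' x y hxy]

theorem PerM.pow {m : A} {h : A → ℂ} (hh : PerM m h) (k : ℕ) :
    PerM m (fun x => h x ^ k) := fun x y hxy => by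
  simp only [hh x y hxy]

theorem PerM.comp_mul {α : Type*} {m : A} {h : A → α} (hh : PerM m h) (u : A) :
    PerM m (fun x => h (u * x)) :=
  fun x y hxy => hh _ _ (by rw [← mul_sub]; exact Dvd.dvd.mul_left hxy u)

theorem PerM.comp_add {α : Type*} {m : A} {h : A → α} (hh : PerM m h) (u : A) :
    PerM m (fun x => h (x + u)) :=
  fun x y hxy => hh _ _ (by rwa [add_sub_add_right_eq_sub])

theorem PerM.conj {m : A} {h : A → ℂ} (hh : PerM m h) :
    PerM m (fun x => (starRingEnd ℂ) (h x)) :=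
  fun x y hxy => by simp only [hh x y hxy]

theorem rsum_eq_sum (m : A) [Fintype (Rs m)] (h : A → ℂ) :
    rsum m h = ∑ x : Rs m, h (Quotient.out x) := by
  rw [rsum, finsum_eq_sum_of_fintype]

theorem rsum_congr {m : A} {h h' : A → ℂ} (hh : ∀ x, h x = h' x) : rsum m h = rsum m h' := by
  have : h = h' := funext hh
  rw [this]

theorem rsum_const_mul (m : A) (c : ℂ) (h : A → ℂ) :
    rsum m (fun x => c * h x) = c * rsum m h := by
  rw [rsum, rsum, mul_finsum]

theorem rsum_mul_const (m : A) (c : ℂ) (h : A → ℂ) :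
    rsum m (fun x => h x * c) = rsum m h * c := by
  rw [rsum, rsum, finsum_mul]

theorem rsum_conj (m : A) [Finite (Rs m)] (h : A → ℂ) :
    rsum m (fun x => (starRingEnd ℂ) (h x)) = (starRingEnd ℂ) (rsum m h) := by
  have := Fintype.ofFinite (Rs m)
  rw [rsum_eq_sum, rsum_eq_sum, map_sum]

theorem rsum_add (m : A) [Finite (Rs m)] (h h' : A → ℂ) :
    rsum m (fun x => h x + h' x) = rsum m h + rsum m h' := by
  have := Fintype.ofFinite (Rs m)
  rw [rsum_eq_sum, rsum_eq_sum, rsum_eq_sum, sum_add_distrib]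

theorem rsum_const (m : A) [Finite (Rs m)] (c : ℂ) : rsum m (fun _ => c) = Nq m * c := by
  have := Fintype.ofFinite (Rs m)
  rw [rsum_eq_sum, sum_const, card_univ, Nq, Nat.card_eq_fintype_card, nsmul_eq_mul]

theorem rsum_comm (m n : A) [Finite (Rs m)] [Finite (Rs n)] (h : A → A → ℂ) :
    rsum m (fun x => rsum n (fun y => h x y)) = rsum n (fun y => rsum m (fun x => h x y)) := by
  have := Fintype.ofFinite (Rs m)
  have := Fintype.ofFinite (Rs n)
  simp only [rsum_eq_sum]
  exact sum_comm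

theorem rsum_sum {β : Type*} (m : A) [Finite (Rs m)] (s : Finset β) (h : β → A → ℂ) :
    rsum m (fun x => ∑ i ∈ s, h i x) = ∑ i ∈ s, rsum m (h i) := by
  have := Fintype.ofFinite (Rs m)
  simp only [rsum_eq_sum]
  exact sum_comm

theorem norm_rsum_le (m : A) [Finite (Rs m)] {h : A → ℂ} {B : ℝ} (hB : ∀ x, ‖h x‖ ≤ B) :
    ‖rsum m h‖ ≤ Nq m * B := by
  have := Fintype.ofFinite (Rs m)
  rw [rsum_eq_sum, Nq, Nat.card_eq_fintype_card, ← card_univ, ← nsmul_eq_mul]
  exact (norm_sum_le _ _).trans (sum_le_card_nsmul _ _ _ fun x _ => hB _)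

/-- change of variables by a bijection of the residue ring -/
theorem rsum_equiv {m : A} {h : A → ℂ} (hh : PerM m h) (e : Rs m ≃ Rs m) (φ : A → A)
    (hφ : ∀ x, e (rs m x) = rs m (φ x)) : rsum m (fun x => h (φ x)) = rsum m h := by
  rw [rsum, rsum, ← finsum_comp_equiv e (f := fun x : Rs m => h (Quotient.out x))]
  refine finsum_congr fun x => ?_
  conv_rhs => rw [← rs_out x, hφ, hh.out]

/-- the change of variables `x ↦ u x` for `u` coprime to `m` -/
theorem rsum_comp_mul {m u : A} (hu : IsCoprime u m) {h : A → ℂ} (hh : PerM m h) :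
    rsum m (fun x => h (u * x)) = rsum m h := by
  obtain ⟨U, hU⟩ := isUnit_rs_iff.2 hu
  exact rsum_equiv hh (Units.mulLeft U) _ fun x => by rw [Units.mulLeft_apply, hU, map_mul]

theorem rsum_comp_add {m : A} (u : A) {h : A → ℂ} (hh : PerM m h) :
    rsum m (fun x => h (x + u)) = rsum m h :=
  rsum_equiv hh (Equiv.addRight (rs m u)) _ fun x => by simp

theorem rsum_comp_neg {m : A} {h : A → ℂ} (hh : PerM m h) :
    rsum m (fun x => h (-x)) = rsum m h :=
  rsum_equiv hh (Equiv.neg _) _ fun x => by simp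

theorem rsum_assoc {m m' : A} (hm : Associated m m') {h : A → ℂ} (hh : PerM m h) :
    rsum m' h = rsum m h := by
  have e := span_eq_of_associated hm
  rw [rsum, rsum, ← finsum_comp_equiv (Ideal.quotEquivOfEq e).toEquiv
    (f := fun x : Rs m' => h (Quotient.out x))]
  refine finsum_congr fun x => hh _ _ ?_
  rw [hm.dvd_iff_dvd_left, ← rs_eq, rs_out]
  conv_lhs => rw [← rs_out x]
  rfl

theorem rsum_one {h : A → ℂ} (hh : PerM 1 h) : rsum (1 : A) h = h 0 := by
  have : Subsingleton (Rs (1 : A)) := Ideal.Quotient.subsingleton_iff.2 Ideal.span_singleton_one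
  rw [rsum, finsum_eq_single _ (rs 1 0) fun x hx => (hx (Subsingleton.elim _ _)).elim, hh.out]

/-- sums modulo `a b`, written with `x + a y` -/
theorem rsum_mul [IsDomain A] {a b : A} (ha : a ≠ 0) [Finite (Rs a)] [Finite (Rs b)] {h : A → ℂ}
    (hh : PerM (a * b) h) :
    rsum (a * b) h = rsum a (fun x => rsum b (fun y => h (x + a * y))) := by
  have := Fintype.ofFinite (Rs a)
  have := Fintype.ofFinite (Rs b)
  let F : Rs a × Rs b → Rs (a * b) := fun p => rs (a * b) (p.1.out + a * p.2.out)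
  have hF : Function.Bijective F := by
    constructor
    · rintro ⟨x, y⟩ ⟨x', y'⟩ hxy
      have h1 : a * b ∣ (x.out + a * y.out) - (x'.out + a * y'.out) := rs_eq.1 hxy
      have h2 : x = x' := by
        rw [← rs_out x, ← rs_out x', rs_eq]
        have h3 := (dvd_mul_right a b).trans h1
        have : x.out - x'.out = (x.out + a * y.out) - (x'.out + a * y'.out) -
            a * (y.out - y'.out) := by ring
        rw [this]
        exact dvd_sub h3 (dvd_mul_right _ _)
      subst h2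
      rw [add_sub_add_left_eq_sub, ← mul_sub, mul_dvd_mul_iff_left ha, ← rs_eq, rs_out,
        rs_out] at h1
      rw [h1]
    · intro z
      obtain ⟨z, rfl⟩ := rs_surj _ z
      have h1 : a ∣ z - (rs a z).out := by rw [← rs_eq, rs_out]
      obtain ⟨t, ht⟩ := h1
      refine ⟨(rs a z, rs b t), ?_⟩
      change rs (a * b) _ = _
      rw [rs_eq]
      have h2 : b ∣ (rs b t).out - t := by rw [← rs_eq, rs_out]
      have : (rs a z).out + a * (rs b t).out - z = a * ((rs b t).out - t) := by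
        linear_combination -ht
      rw [this]
      exact mul_dvd_mul_left a h2
  have : Fintype (Rs (a * b)) := Fintype.ofBijective F hF
  simp only [rsum_eq_sum]
  rw [← Fintype.sum_prod_type', ← hF.sum_comp]
  exact sum_congr rfl fun p _ => hh.out _

/-- Chinese remainder theorem for sums of periodic functions -/
theorem rsum_crt [IsDomain A] {a b : A} (ha : a ≠ 0) [Finite (Rs a)] [Finite (Rs b)]
    (hab : IsCoprime a b) {h : A → ℂ} (hh : PerM (a * b) h) :
    rsum (a * b) h = rsum a (fun x => rsum b (fun y => h (b * x + a * y))) := by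
  rw [rsum_mul ha hh]
  refine (rsum_comp_mul (h := fun x => rsum b (fun y => h (x + a * y))) hab.symm ?_).symm
  intro x x' ⟨t, ht⟩
  have hp : PerM b (fun y => h (x' + a * y)) := fun y y' hy => hh _ _ (by
    rw [add_sub_add_left_eq_sub, ← mul_sub]; exact mul_dvd_mul_left a hy)
  change rsum b _ = rsum b _
  rw [← rsum_comp_add t hp]
  exact rsum_congr fun y => by congr 1; linear_combination ht

end general

variable {K : Type} [Field K] [NumberField K]

theorem infinite_Loc (T : Submonoid ℕ) : Infinite (Loc K T) :=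
  Infinite.of_injective (Nat.cast : ℕ → Loc K T) Nat.cast_injective

variable [Dat K]

instance : Infinite (R K) := infinite_Loc _

instance : Infinite (Si K) := infinite_Loc _

/-- the inclusion of the integers in `R` -/
abbrev toR : 𝓞 K →+* R K := algebraMap (𝓞 K) (R K)

/-- the inclusion of the integers in `Si` -/
abbrev toSi : 𝓞 K →+* Si K := algebraMap (𝓞 K) (Si K)

@[simp] theorem coe_toR (x : 𝓞 K) : ((toR x : R K) : K) = (x : K) := rfl

@[simp] theorem coe_toSi (x : 𝓞 K) : ((toSi x : Si K) : K) = (x : K) := rfl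

theorem coe_ne_zero {x : R K} (hx : x ≠ 0) : (x : K) ≠ 0 := fun h => hx (Subtype.ext h)

theorem dvd_iff_div_mem {a x : R K} (ha : a ≠ 0) : a ∣ x ↔ (x : K) / a ∈ R K := by
  have ha' := coe_ne_zero ha
  constructor
  · rintro ⟨t, rfl⟩
    push_cast
    rw [mul_div_cancel_left₀ _ ha']
    exact t.2
  · intro h
    exact ⟨⟨_, h⟩, Subtype.ext (by push_cast; field_simp)⟩

theorem dvd_iff_div_mem_Si {a x : Si K} (ha : a ≠ 0) : a ∣ x ↔ (x : K) / a ∈ Si K := by
  have ha' : (a : K) ≠ 0 := fun h => ha (Subtype.ext h)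
  constructor
  · rintro ⟨t, rfl⟩
    push_cast
    rw [mul_div_cancel_left₀ _ ha']
    exact t.2
  · intro h
    exact ⟨⟨_, h⟩, Subtype.ext (by push_cast; field_simp)⟩

theorem toR_surj {n : R K} (hn : n ≠ 0) : Function.Surjective ((rs n).comp toR) := by
  intro x
  obtain ⟨a, rfl⟩ := rs_surj n x
  obtain ⟨y, hy⟩ := exists_small_mod a n hn 0
  rw [pow_zero, one_mul] at hy
  exact ⟨y, rs_eq.2 hy⟩

/-- the ideal of the integers below `n R` -/
abbrev idl (n : R K) : Ideal (𝓞 K) := (Ideal.span {n}).comap toR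

theorem mem_idl {n : R K} {x : 𝓞 K} : x ∈ idl n ↔ n ∣ toR x := by
  rw [Ideal.mem_comap, Ideal.mem_span_singleton]

/-- the norm of an element of `R`: the number of residue classes -/
noncomputable abbrev Nr (n : R K) : ℕ := Nq n

/-- the norm of an element of `Si`: the number of residue classes -/
noncomputable abbrev Ns (n : Si K) : ℕ := Nq n

theorem Nr_eq_absNorm {n : R K} (hn : n ≠ 0) : Nr n = Ideal.absNorm (idl n) := by
  rw [Ideal.absNorm_apply, Submodule.cardQuot_apply]
  have h := RingHom.quotientKerEquivOfSurjective (toR_surj hn)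
  have e : RingHom.ker ((rs n).comp toR) = idl n := by
    ext x; rw [RingHom.mem_ker, RingHom.comp_apply, rs_eq_zero, mem_idl]
  rw [← e]
  exact (Nat.card_congr h.toEquiv).symm

theorem idl_ne_bot {n : R K} (hn : n ≠ 0) : idl n ≠ ⊥ := by
  obtain ⟨m, hm, h⟩ := exists_coprime_dvd hn
  intro h0
  have h1 : (m : 𝓞 K) ∈ idl n := mem_idl.2 (by simpa using h)
  rw [h0, Ideal.mem_bot] at h1
  exact ne_zero_of_coprime hm (by exact_mod_cast h1)

theorem Nr_ne_zero {n : R K} (hn : n ≠ 0) : Nr n ≠ 0 := by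
  rw [Nr_eq_absNorm hn, Ne, Ideal.absNorm_eq_zero_iff]
  exact idl_ne_bot hn

theorem Nr_pos {n : R K} (hn : n ≠ 0) : 0 < Nr n := Nat.pos_of_ne_zero (Nr_ne_zero hn)

theorem finite_Rs {n : R K} (hn : n ≠ 0) : Finite (Rs n) :=
  Nat.finite_of_card_ne_zero (Nr_ne_zero hn)

instance (n : R K) [NeZero n] : Finite (Rs n) := finite_Rs (NeZero.ne n)

theorem Nr_mul (a b : R K) : Nr (a * b) = Nr a * Nr b := Nq_mul a b

theorem Nr_one : Nr (1 : R K) = 1 := Nq_one

theorem Nr_zero : Nr (0 : R K) = 0 := by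
  rw [Nr, Nq_eq_index, Ideal.span_singleton_zero]
  simp

theorem Nr_pow (a : R K) (k : ℕ) : Nr (a ^ k) = Nr a ^ k := by
  induction k with
  | zero => simp [Nr_one]
  | succ k ih => rw [pow_succ, Nr_mul, ih, pow_succ]

theorem dvd_Nr {n : R K} (hn : n ≠ 0) : n ∣ (Nr n : R K) := by
  have h := mem_idl.1 (Ideal.absNorm_mem (idl n))
  rw [Nr_eq_absNorm hn]
  simpa using h

theorem absNorm_natCast (m : ℕ) :
    Ideal.absNorm (Ideal.span {(m : 𝓞 K)}) = m ^ Module.finrank ℤ (𝓞 K) := by
  rw [Ideal.absNorm_span_singleton, show (m : 𝓞 K) = algebraMap ℤ (𝓞 K) (m : ℤ) by simp,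
    Algebra.norm_algebraMap]
  simp

theorem Nr_coprime {n : R K} (hn : n ≠ 0) : (Nr n).Coprime (Q K) := by
  obtain ⟨m, hm, h⟩ := exists_coprime_dvd hn
  have h1 : Ideal.span {(m : 𝓞 K)} ≤ idl n := by
    rw [Ideal.span_singleton_le_iff_mem, mem_idl]; simpa using h
  have h2 := Ideal.absNorm_dvd_absNorm_of_le h1
  rw [absNorm_natCast, ← Nr_eq_absNorm hn] at h2
  exact Nat.Coprime.coprime_dvd_left h2 (hm.pow_left _)

theorem toSi_surj {n : Si K} (hn : n ≠ 0) : Function.Surjective ((rs n).comp toSi) := by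
  intro x
  obtain ⟨a, rfl⟩ := rs_surj n x
  have hn' : (n : K) ≠ 0 := fun h => hn (Subtype.ext h)
  obtain ⟨y, hy, h⟩ := exists_R_near (a : K) hn'
  have h1 : y ∈ Si K := by
    have : y = a + n * ((y - a) / n) := by field_simp; ring
    rw [this]
    exact add_mem a.2 (mul_mem n.2 h)
  refine ⟨⟨y, isIntegral_of_mem hy h1⟩, rs_eq.2 ?_⟩
  rw [dvd_iff_div_mem_Si hn]
  exact h

/-- the absolute norm of an integer is the product of its norms in `R` and in `Si` -/
theorem absNorm_eq_mul {x : 𝓞 K} (hx : x ≠ 0) :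
    Ideal.absNorm (Ideal.span {x}) = Nr (toR x) * Ns (toSi x) := by
  have hxK : (x : K) ≠ 0 := by exact_mod_cast hx
  have h1 : toR x ≠ 0 := fun h => hxK (congrArg (fun t : R K => (t : K)) h)
  have h2 : toSi x ≠ 0 := fun h => hxK (congrArg (fun t : Si K => (t : K)) h)
  let f : 𝓞 K →+* Rs (toR x) × Rs (toSi x) :=
    RingHom.prod ((rs (toR x)).comp toR) ((rs (toSi x)).comp toSi)
  have hf : Function.Surjective f := by
    rintro ⟨a, b⟩
    obtain ⟨a, rfl⟩ := rs_surj _ a
    obtain ⟨b, rfl⟩ := rs_surj _ b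
    obtain ⟨y, hy, h⟩ := exists_R_near_mod a (toR x) h1 (b : K) hxK
    have h3 : (y : K) ∈ Si K := by
      have : (y : K) = b + x * ((y - b) / x) := by field_simp; ring
      rw [this]
      exact add_mem b.2 (mul_mem (coe_mem_Loc x) h)
    refine ⟨⟨y, isIntegral_of_mem y.2 h3⟩, Prod.ext (rs_eq.2 hy) (rs_eq.2 ?_)⟩
    rw [dvd_iff_div_mem_Si h2]
    exact h
  have e : RingHom.ker f = Ideal.span {x} := by
    ext y
    rw [RingHom.mem_ker, Prod.ext_iff, Ideal.mem_span_singleton]
    change rs _ (toR y) = 0 ∧ rs _ (toSi y) = 0 ↔ _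
    rw [rs_eq_zero, rs_eq_zero, dvd_iff_div_mem h1, dvd_iff_div_mem_Si h2]
    constructor
    · rintro ⟨ha, hb⟩
      refine ⟨⟨_, isIntegral_of_mem ha hb⟩, RingOfIntegers.ext ?_⟩
      change (y : K) = (x : K) * ((y : K) / (x : K))
      field_simp
    · rintro ⟨t, rfl⟩
      have : (((x * t : 𝓞 K)) : K) / (x : K) = t := by push_cast; field_simp
      exact ⟨by rw [coe_toR, coe_toR, this]; exact coe_mem_Loc t,
        by rw [coe_toSi, coe_toSi, this]; exact coe_mem_Loc t⟩
  have h := RingHom.quotientKerEquivOfSurjective hf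
  rw [← e, Ideal.absNorm_apply, Submodule.cardQuot_apply, Nat.card_congr h.toEquiv,
    Nat.card_prod]
  rfl

theorem nm_eq_absNorm (x : 𝓞 K) :
    (cmK K).nm (x : K) = (Ideal.absNorm (Ideal.span {x}) : ℝ) := by
  have h0 := (cmK K).nm_nonneg (x : K)
  rw [(cmK K).nm_eq, ← Algebra.coe_norm_int] at h0 ⊢
  rw [Ideal.absNorm_span_singleton]
  have h1 : (0 : ℤ) ≤ Algebra.norm ℤ x := by exact_mod_cast h0
  have h2 : ((Algebra.norm ℤ x).natAbs : ℤ) = Algebra.norm ℤ x := Int.natAbs_of_nonneg h1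
  rw [← h2]
  simp

theorem nm_eq_mul {x : 𝓞 K} (hx : x ≠ 0) :
    (cmK K).nm (x : K) = (Nr (toR x) : ℝ) * Ns (toSi x) := by
  rw [nm_eq_absNorm, absNorm_eq_mul hx]; push_cast; rfl

/-- for an element of `R` which is a unit at `S`, the two norms agree -/
theorem nm_eq_Nr {x : R K} (hx : x ≠ 0) (h1 : (x : K) ∈ Si K) (h2 : (x : K)⁻¹ ∈ Si K) :
    (cmK K).nm (x : K) = Nr x := by
  let y : 𝓞 K := ⟨x, isIntegral_of_mem x.2 h1⟩
  have hy : y ≠ 0 := fun h => coe_ne_zero hx (congrArg (fun t : 𝓞 K => (t : K)) h)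
  have h3 := nm_eq_mul hy
  have h4 : IsUnit (toSi y) := IsUnit.of_mul_eq_one ⟨_, h2⟩ (Subtype.ext (by
    change (x : K) * (x : K)⁻¹ = 1
    exact mul_inv_cancel₀ (coe_ne_zero hx)))
  rw [show Ns (toSi y) = 1 from Nq_eq_one_iff.2 h4, Nat.cast_one, mul_one] at h3
  exact h3

end Vale.Agent.P016Z
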