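import Vale.Agent.P016Z.Base.Nrm
import Mathlib.RingTheory.DedekindDomain.Different

/-!
P016, base: the additive character `psi` of `K`, trivial exactly on `R`-multiples, and complete
sums of additive characters.
-/

open NumberField Finset
open scoped ComplexConjugate

set_option linter.unusedSectionVars false

namespace Vale.Agent.P016Z

open TH

variable {K : Type} [Field K] [NumberField K]

/-- the trace, as a real number -/
noncomputable def trR (x : K) : ℝ := ((Algebra.trace ℚ K x : ℚ) : ℝ)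

theorem trR_add (x y : K) : trR (x + y) = trR x + trR y := by simp [trR]

theorem trR_sub (x y : K) : trR (x - y) = trR x - trR y := by simp [trR]

theorem trR_neg (x : K) : trR (-x) = -trR x := by simp [trR]

theorem trR_zero : trR (0 : K) = 0 := by simp [trR]

theorem trR_natCast_mul (m : ℕ) (x : K) : trR ((m : K) * x) = m * trR x := by
  rw [trR, trR, ← nsmul_eq_mul, map_nsmul]; simp

theorem trR_int {x : K} (hx : IsIntegral ℤ x) : ∃ n : ℤ, trR x = n := by
  obtain ⟨n, hn⟩ := IsIntegrallyClosed.isIntegral_iff.1 (Algebra.isIntegral_trace (L := ℚ) hx)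
  exact ⟨n, by rw [trR, ← hn]; simp⟩

theorem ee_eq_one_iff {t : ℝ} : ee t = 1 ↔ ∃ n : ℤ, t = n := by
  constructor
  · intro h
    obtain ⟨n, hn⟩ := Complex.exp_eq_one_iff.1 h
    refine ⟨n, ?_⟩
    have h1 : (2 * Real.pi * Complex.I : ℂ) ≠ 0 := Complex.two_pi_I_ne_zero
    have h2 : (t : ℂ) = n := mul_left_cancel₀ h1 (by rw [hn]; ring)
    exact_mod_cast h2
  · rintro ⟨n, rfl⟩; exact ee_int n

/-- an element of the trace dual of the integers becomes integral after multiplication by the
discriminant -/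
theorem isIntegral_discr_mul {y : K} (h : ∀ x : 𝓞 K, ∃ n : ℤ, trR ((x : K) * y) = n) :
    IsIntegral ℤ (((discr K).natAbs : K) * y) := by
  classical
  have hy : y ∈ Submodule.traceDual ℤ ℚ (1 : Submodule (𝓞 K) K) := by
    rw [Submodule.mem_traceDual]
    intro a ha
    obtain ⟨x, rfl⟩ := Submodule.mem_one.1 ha
    obtain ⟨n, hn⟩ := h x
    refine ⟨n, ?_⟩
    rw [Algebra.traceForm_apply, mul_comm y]
    have : ((Algebra.trace ℚ K ((x : K) * y) : ℚ) : ℝ) = ((n : ℚ) : ℝ) := by
      rw [Rat.cast_intCast]; exact hn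
    exact (Rat.cast_injective this).symm
  have h1 := isIntegral_discr_mul_of_mem_traceDual (A := ℤ) (K := ℚ) (1 : Submodule (𝓞 K) K)
    (b := integralBasis K) (fun i => by
      rw [integralBasis_apply]; exact RingOfIntegers.isIntegral_coe _)
    (a := 1) (Submodule.mem_one.2 ⟨1, map_one _⟩) hy
  rw [← coe_discr, Algebra.smul_def, mul_one, map_intCast] at h1
  rcases Int.natAbs_eq (discr K) with h2 | h2
  · rw [h2] at h1; simpa using h1
  · rw [h2] at h1; simpa using h1.neg

variable [Dat K]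

theorem int_of_pow_of_coprime {t : ℝ} {k m : ℕ} (hm : m.Coprime (Q K)) {a b : ℤ}
    (ha : (Q K : ℝ) ^ k * t = a) (hb : (m : ℝ) * t = b) : ∃ n : ℤ, t = n := by
  obtain ⟨u, v, h⟩ := Nat.isCoprime_iff_coprime.2 (hm.symm.pow_left k)
  have h1 := congrArg (Int.cast : ℤ → ℝ) h
  push_cast at h1
  refine ⟨u * a + v * b, ?_⟩
  push_cast
  linear_combination (-t) * h1 + u * ha + v * hb

theorem trR_R {x : K} (hx : x ∈ R K) : ∃ (k : ℕ) (a : ℤ), (Q K : ℝ) ^ k * trR x = a := by
  obtain ⟨k, hk⟩ := mem_R.1 hx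
  obtain ⟨a, ha⟩ := trR_int hk
  refine ⟨k, a, ?_⟩
  rw [← ha, ← Nat.cast_pow, ← Nat.cast_pow, trR_natCast_mul]

theorem trR_Si {x : K} (hx : x ∈ Si K) :
    ∃ (m : ℕ) (b : ℤ), m.Coprime (Q K) ∧ (m : ℝ) * trR x = b := by
  obtain ⟨m, hm, hk⟩ := hx
  obtain ⟨a, ha⟩ := trR_int hk
  exact ⟨m, a, hm, by rw [← ha, trR_natCast_mul]⟩

/-- the additive character of `K` given by the places outside `S` -/
noncomputable def psi (y : K) : ℂ := ee (trR (y - (exists_add y).choose))

theorem psi_eq {y y1 : K} (h1 : y1 ∈ R K) (h2 : y - y1 ∈ Si K) : psi y = ee (trR (y - y1)) := by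
  obtain ⟨h3, h4⟩ := (exists_add y).choose_spec
  have h5 : IsIntegral ℤ (y1 - (exists_add y).choose) := by
    refine isIntegral_of_mem (sub_mem h1 h3) ?_
    have := sub_mem h4 h2
    rwa [sub_sub_sub_cancel_left] at this
  obtain ⟨n, hn⟩ := trR_int h5
  have : y - (exists_add y).choose = (y - y1) + (y1 - (exists_add y).choose) := by ring
  rw [psi, this, trR_add, ee_add, hn, ee_int, mul_one]

theorem psi_add (x y : K) : psi (x + y) = psi x * psi y := by
  obtain ⟨x1, h1, h2⟩ := exists_add x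
  obtain ⟨y1, h3, h4⟩ := exists_add y
  have e : x + y - (x1 + y1) = (x - x1) + (y - y1) := by ring
  rw [psi_eq h1 h2, psi_eq h3 h4, psi_eq (add_mem h1 h3) (by rw [e]; exact add_mem h2 h4), e,
    trR_add, ee_add]

theorem psi_of_mem_R {x : K} (hx : x ∈ R K) : psi x = 1 := by
  rw [psi_eq hx (by rw [sub_self]; exact zero_mem _), sub_self, trR_zero, ee_zero]

theorem psi_coe (x : R K) : psi (x : K) = 1 := psi_of_mem_R x.2

theorem psi_zero : psi (0 : K) = 1 := psi_of_mem_R (zero_mem _)

theorem norm_psi (x : K) : ‖psi x‖ = 1 := norm_ee _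

theorem psi_ne_zero (x : K) : psi x ≠ 0 := ee_ne _

theorem psi_neg (x : K) : psi (-x) = conj (psi x) := by
  have h1 : psi (-x) * psi x = 1 := by rw [← psi_add, neg_add_cancel, psi_zero]
  have h2 : conj (psi x) * psi x = 1 := by
    rw [Complex.conj_mul', norm_psi]; simp
  exact mul_right_cancel₀ (psi_ne_zero x) (h1.trans h2.symm)

theorem psi_add_R (x : K) {y : K} (hy : y ∈ R K) : psi (x + y) = psi x := by
  rw [psi_add, psi_of_mem_R hy, mul_one]

theorem psi_congr {x y : K} (h : x - y ∈ R K) : psi x = psi y := by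
  rw [← psi_add_R y h, add_sub_cancel]

theorem psi_of_mem_Si {x : K} (hx : x ∈ Si K) : psi x = ee (trR x) := by
  rw [psi_eq (zero_mem _) (by rwa [sub_zero]), sub_zero]

/-- if the trace has denominator prime to `Q`, then `psi` is the usual exponential -/
theorem psi_eq_ee {y : K} {m : ℕ} (hm : m.Coprime (Q K)) {b : ℤ} (hb : (m : ℝ) * trR y = b) :
    psi y = ee (trR y) := by
  obtain ⟨y1, h1, h2⟩ := exists_add y
  obtain ⟨k, a, ha⟩ := trR_R h1
  obtain ⟨m', b', hm', hb'⟩ := trR_Si h2
  obtain ⟨n, hn⟩ := int_of_pow_of_coprime (t := trR y1) (Nat.Coprime.mul_left hm hm')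
    (b := m' * b - m * b') ha (by
      push_cast
      rw [trR_sub] at hb'
      linear_combination m' * hb - m * hb')
  rw [psi_eq h1 h2, trR_sub, hn, sub_eq_add_neg, ee_add, ← Int.cast_neg, ee_int, mul_one]

/-- if the trace has denominator a power of `Q`, then `psi` is trivial -/
theorem psi_eq_one {y : K} {k : ℕ} {a : ℤ} (ha : (Q K : ℝ) ^ k * trR y = a) : psi y = 1 := by
  obtain ⟨y1, h1, h2⟩ := exists_add y
  obtain ⟨k', a', ha'⟩ := trR_R h1
  obtain ⟨m', b', hm', hb'⟩ := trR_Si h2
  obtain ⟨n, hn⟩ := int_of_pow_of_coprime (t := trR (y - y1)) (k := k + k') hm'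
    (a := (Q K) ^ k' * a - (Q K) ^ k * a') (by
      push_cast
      rw [trR_sub, pow_add]
      linear_combination (Q K : ℝ) ^ k' * ha - (Q K : ℝ) ^ k * ha') hb'
  rw [psi_eq h1 h2, hn, ee_int]

/-- `R` is its own dual -/
theorem mem_R_of_psi {y : K} (h : ∀ x : R K, psi ((x : K) * y) = 1) : y ∈ R K := by
  obtain ⟨y1, h1, h2⟩ := exists_add y
  have h3 : ∀ x : 𝓞 K, ∃ n : ℤ, trR ((x : K) * (y - y1)) = n := by
    intro x
    rw [← ee_eq_one_iff, ← psi_of_mem_Si (mul_mem (coe_mem_Loc x) h2), ← h (toR x)]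
    refine psi_congr ?_
    have : (x : K) * (y - y1) - ((toR x : R K) : K) * y = -((x : K) * y1) := by
      rw [coe_toR]; ring
    rw [this]
    exact neg_mem (mul_mem (coe_mem_Loc x) h1)
  have h4 : y - y1 ∈ R K :=
    mem_R.2 ⟨1, by
      rw [pow_one]; exact isIntegral_mul_of_dvd Dat.disc_dvd (isIntegral_discr_mul h3)⟩
  simpa using add_mem h4 h1

theorem ch_em_eq (ν x : K) : (cmK K).ch ν ((cmK K).em x) = ee (trR (ν * x)) := (cmK K).ch_em ν x

/-- `psi (x / m)` -/
noncomputable def E (m x : R K) : ℂ := psi ((x : K) / (m : K))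

theorem E_add (m x y : R K) : E m (x + y) = E m x * E m y := by
  rw [E, E, E, ← psi_add]; congr 1; push_cast; ring

theorem E_zero (m : R K) : E m 0 = 1 := by rw [E]; simp [psi_zero]

theorem norm_E (m x : R K) : ‖E m x‖ = 1 := norm_psi _

theorem E_neg (m x : R K) : E m (-x) = conj (E m x) := by
  rw [E, E, ← psi_neg]; congr 1; push_cast; ring

theorem E_of_dvd {m x : R K} (hm : m ≠ 0) (h : m ∣ x) : E m x = 1 :=
  psi_of_mem_R ((dvd_iff_div_mem hm).1 h)

theorem E_per' {m : R K} (hm : m ≠ 0) : PerM m (E m) := by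
  intro x y h
  rw [show x = y + (x - y) by ring, E_add, E_of_dvd hm h, mul_one]

theorem E_per {m : R K} (hm : m ≠ 0) (k : R K) : PerM m (fun x => E m (x * k)) := by
  intro x y h
  exact E_per' hm _ _ (by rw [← sub_mul]; exact h.mul_right k)

theorem E_mul_cancel {a : R K} (ha : a ≠ 0) (b x : R K) : E (a * b) (a * x) = E b x := by
  rw [E, E]; push_cast; rw [mul_div_mul_left _ _ (coe_ne_zero ha)]

theorem dvd_of_E {m k : R K} (hm : m ≠ 0) (h : ∀ x, E m (x * k) = 1) : m ∣ k := by
  rw [dvd_iff_div_mem hm]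
  refine mem_R_of_psi fun x => ?_
  rw [← h x, E]; congr 1; push_cast; ring

open Classical in
/-- orthogonality -/
theorem rsum_E {m : R K} (hm : m ≠ 0) (k : R K) :
    rsum m (fun x => E m (x * k)) = if m ∣ k then (Nr m : ℂ) else 0 := by
  have := finite_Rs hm
  split_ifs with h
  · rw [rsum_congr (h' := fun _ => 1) fun x => E_of_dvd hm (h.mul_left x), rsum_const, mul_one]
  · by_contra hne
    apply h
    refine dvd_of_E hm fun x => ?_
    have h1 := rsum_comp_add x (E_per hm k)
    simp only [add_mul, E_add] at h1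
    rw [rsum_mul_const] at h1
    exact mul_left_cancel₀ hne (h1.trans (mul_one _).symm)

/-- the additive character of the residue ring -/
noncomputable def Ech {m : R K} (hm : m ≠ 0) : AddChar (Rs m) ℂ where
  toFun x := E m (Quotient.out x)
  map_zero_eq_one' := by
    rw [← map_zero (rs m), (E_per' hm).out, E_zero]
  map_add_eq_mul' x y := by
    obtain ⟨x, rfl⟩ := rs_surj m x
    obtain ⟨y, rfl⟩ := rs_surj m y
    rw [← map_add, (E_per' hm).out, (E_per' hm).out, (E_per' hm).out, E_add]

theorem Ech_rs {m : R K} (hm : m ≠ 0) (x : R K) : Ech hm (rs m x) = E m x := (E_per' hm).out x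

theorem Ech_primitive {m : R K} (hm : m ≠ 0) : (Ech hm).IsPrimitive := by
  intro a ha h
  obtain ⟨a, rfl⟩ := rs_surj m a
  apply ha
  rw [rs_eq_zero]
  refine dvd_of_E hm fun x => ?_
  have := DFunLike.congr_fun h (rs m x)
  rwa [AddChar.mulShift_apply, ← map_mul, Ech_rs, mul_comm, AddChar.one_apply] at this

/-- the two-factor formula for twisted complete sums -/
theorem rsum_mul_E {a b : R K} (ha : a ≠ 0) (hb : b ≠ 0) (hab : IsCoprime a b)
    {f g : R K → ℂ} (hf : PerM a f) (hg : PerM b g) (k : R K) :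
    rsum (a * b) (fun x => f x * g x * E (a * b) (x * k)) =
      rsum a (fun x => f (b * x) * E a (x * k)) * rsum b (fun y => g (a * y) * E b (y * k)) := by
  have := finite_Rs ha
  have := finite_Rs hb
  have hper : PerM (a * b) (fun x => f x * g x * E (a * b) (x * k)) :=
    ((hf.mono (dvd_mul_right a b)).mul (hg.mono (dvd_mul_left b a))).mul
      (E_per (mul_ne_zero ha hb) k)
  rw [rsum_crt ha hab hper]
  have h1 : ∀ x y : R K, f (b * x + a * y) * g (b * x + a * y) * E (a * b) ((b * x + a * y) * k) =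
      (f (b * x) * E a (x * k)) * (g (a * y) * E b (y * k)) := by
    intro x y
    have e1 : f (b * x + a * y) = f (b * x) := hf _ _ (by
      rw [add_sub_cancel_left]; exact dvd_mul_right a y)
    have e2 : g (b * x + a * y) = g (a * y) := hg _ _ (by
      rw [add_sub_cancel_right]; exact dvd_mul_right b x)
    have e3 : (b * x + a * y) * k = b * (x * k) + a * (y * k) := by ring
    rw [e1, e2, e3, E_add, E_mul_cancel ha, mul_comm a b, E_mul_cancel hb]
    ring
  simp only [h1, rsum_const_mul]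
  rw [rsum_mul_const]

/-- the finite Fourier transform modulo `n` -/
noncomputable def fhat (n : R K) (f : R K → ℂ) (y : R K) : ℂ :=
  rsum n (fun x => f x * E n (x * y))

/-- Fourier inversion modulo `n` -/
theorem fourier_inv {n : R K} (hn : n ≠ 0) {f : R K → ℂ} (hf : PerM n f) (x : R K) :
    rsum n (fun y => fhat n f y * E n (-(x * y))) = Nr n * f x := by
  classical
  have := finite_Rs hn
  have h1 : ∀ y, fhat n f y * E n (-(x * y)) = rsum n (fun t => f t * E n (y * (t - x))) := by
    intro y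
    rw [fhat, ← rsum_mul_const]
    refine rsum_congr fun t => ?_
    rw [mul_assoc, ← E_add]; congr 2; ring
  simp only [h1]
  rw [rsum_comm]
  simp only [rsum_const_mul, rsum_E hn]
  have hp : PerM n (fun t => f t * if n ∣ t - x then (Nr n : ℂ) else 0) := hf.mul fun s t h => by
    have : n ∣ s - x ↔ n ∣ t - x := by
      rw [show s - x = (s - t) + (t - x) by ring]; exact dvd_add_right h
    simp only [this]
  rw [rsum, finsum_eq_single _ (rs n x), hp.out x, sub_self, if_pos (dvd_zero _), mul_comm]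
  intro t ht
  rw [if_neg, mul_zero]
  rwa [← rs_eq, rs_out]

end Vale.Agent.P016Z
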